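import Vale.Agent.P307.Defs

/-! Members with free bases of strong substructures. -/

universe u

open FirstOrder Cardinal Set Function Language

namespace Vale.Agent.P307.H479.E

variable {L : Language.{u, u}} {M : Type u} [L.Structure M]

/-- `U` is the least substructure of `S` with `str` which contains the members of `B`. -/
def Lst (str : L.Substructure M → Prop) (S : L.Substructure M) (B : Set (L.Substructure M))
    (U : L.Substructure M) : Prop :=
  str U ∧ U ≤ S ∧ (∀ T ∈ B, T ≤ U) ∧ ∀ V, str V → V ≤ S → (∀ T ∈ B, T ≤ V) → U ≤ V

/-- `A` is a free set of substructures of `S` (all substructures with `str`): its members are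
minimal among those which are not the least one, and every subset `B` of `A` has a least
substructure above it, which contains no other member of `A`. -/
def FreeIn (str : L.Substructure M → Prop) (S : L.Substructure M) (A : Set (L.Substructure M)) :
    Prop :=
  (∀ T ∈ A, str T ∧ T ≤ S) ∧
    (∀ T ∈ A, ∀ T', str T' → T' ≤ T → T' = T ∨ Lst str S ∅ T') ∧
    ∀ B ⊆ A, ∃ U, Lst str S B U ∧ ∀ T ∈ A, T ≤ U → T ∈ B

/-- `A` is a basis of `S`: it is free, and `S` is the least one above it. -/
def BasisOf (str : L.Substructure M → Prop) (S : L.Substructure M) (A : Set (L.Substructure M)) :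
    Prop :=
  FreeIn str S A ∧ Lst str S A S

/-- There is a basis, every free set in `S` is contained in a basis of every `T` containing `S`,
and any two bases of `M` are conjugate under the automorphisms of `M` with `aut`. -/
def HasBases (str : L.Substructure M → Prop) (aut : (M ≃[L] M) → Prop) : Prop :=
  (∃ A : Set (L.Substructure M), BasisOf str ⊤ A) ∧
    (∀ S T : L.Substructure M, str S → str T → S ≤ T → ∀ A, FreeIn str S A →
      ∃ B, A ⊆ B ∧ BasisOf str T B) ∧
    ∀ A B : Set (L.Substructure M), BasisOf str ⊤ A → BasisOf str ⊤ B →
      ∃ σ : M ≃[L] M, aut σ ∧ ∀ T ∈ A, T.map σ.toHom ∈ B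

/-- The strong substructures of `M` have bases. -/
def IsFree (K : AEC L) (M : Type u) [L.Structure M] : Prop :=
  HasBases (fun S : L.Substructure M => K.le S) fun _ => True

end Vale.Agent.P307.H479.E
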