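import Vale.Agent.P307.H479.E.Free
import Vale.Agent.P307.Ow.EM

/-! Ehrenfeucht-Mostowski functors with a locally free family of strong substructures. -/

universe u

open FirstOrder Cardinal Set Function Language

namespace Vale.Agent.P307.H479.E

open Language.Structure
open Ow (le_map le_comap map_comap map_le_range exists_emb_of_atEq)

variable {L : Language.{u, u}}

/-- A functor from linear orders with a locally free family of strong substructures. -/
structure LocFam (K : AEC L) where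
  obj : ∀ (I : Type u) [LinearOrder I], Type u
  str : ∀ (I : Type u) [LinearOrder I], L.Structure (obj I)
  map : ∀ {I J : Type u} [LinearOrder I] [LinearOrder J], (I ↪o J) → (obj I ↪[L] obj J)
  map_refl : ∀ {I : Type u} [LinearOrder I] (a : obj I), map (RelEmbedding.refl (· ≤ ·)) a = a
  map_trans : ∀ {I J M : Type u} [LinearOrder I] [LinearOrder J] [LinearOrder M] (i : I ↪o J)
    (j : J ↪o M) (a : obj I), map (i.trans j) a = map j (map i a)
  emb : ∀ {I J : Type u} [LinearOrder I] [LinearOrder J] (f : I ↪o J), K.Emb (map f)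
  U : ∀ (I : Type u) [LinearOrder I], I → L.Substructure (obj I)
  c : ∀ (I : Type u) [LinearOrder I], I → obj I
  map_c : ∀ {I J : Type u} [LinearOrder I] [LinearOrder J] (f : I ↪o J) (i : I),
    map f (c I i) = c J (f i)
  map_U : ∀ {I J : Type u} [LinearOrder I] [LinearOrder J] (f : I ↪o J) (i : I),
    (U I i).map (map f).toHom = U J (f i)
  c_mem : ∀ (I : Type u) [LinearOrder I] (i : I), c I i ∈ U I i
  loc : ∀ n : ℕ, FreeIn (kle K (obj (ULift.{u} (Fin n)))) ⊤ (range (U (ULift.{u} (Fin n))))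
  sep : ∀ (n : ℕ) (k : ULift.{u} (Fin n)) (B : Set (ULift.{u} (Fin n))), k ∉ B →
    ∀ V, Lst (kle K (obj (ULift.{u} (Fin n)))) ⊤ (U (ULift.{u} (Fin n)) '' B) V →
      c (ULift.{u} (Fin n)) k ∉ V

attribute [instance] LocFam.str

theorem mk_atom_le {K : AEC L} {ℓ : Cardinal.{u}} (hK : K.IsLS ℓ) {M : Type u} [L.Structure M]
    {A : Set (L.Substructure M)} (hA : FreeIn (kle K M) ⊤ A) {T : L.Substructure M}
    (hT : T ∈ A) : #T ≤ ℓ := by
  obtain ⟨O, hO, hO2⟩ := hA.2.2 ∅ (empty_subset _)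
  have h1 : ¬ T ≤ O := fun h => hO2 T hT h
  obtain ⟨x, hx, hxO⟩ := SetLike.not_le_iff_exists.1 h1
  have hTs : K.le T := (hA.1 T hT).1
  obtain ⟨S, h2, h3, h4⟩ := hK.2.2 T (K.mem_of_le _ hTs).1 {⟨x, hx⟩}
  have h5 : K.le (S.map T.subtype.toHom) := K.le_trans _ _ h2 hTs
  have h6 : S.map T.subtype.toHom ≤ T := by
    rintro _ ⟨y, -, rfl⟩
    exact y.2
  rcases hA.2.1 T hT _ h5 h6 with h7 | h7
  · have h8 : #T ≤ #S := by
      refine mk_le_of_injective (f := fun y : T => (⟨y, ?_⟩ : S)) ?_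
      · have h9 : (y : M) ∈ S.map T.subtype.toHom := by
          rw [h7]
          exact y.2
        obtain ⟨z, hz, hzy⟩ := h9
        have : z = y := Subtype.ext hzy
        rw [← this]
        exact hz
      · intro y z hyz
        exact congrArg Subtype.val hyz
    refine h8.trans (h4.trans ?_)
    refine add_le_of_le hK.1 ?_ le_rfl
    rw [mk_singleton]
    exact one_le_aleph0.trans hK.1
  · exfalso
    apply hxO
    exact h7.2.2.2 O hO.1 hO.2.1 (fun _ h => absurd h (notMem_empty _))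
      ⟨⟨x, hx⟩, h3 rfl, rfl⟩

theorem mk_basis {K : AEC L} {ℓ : Cardinal.{u}} (hK : K.IsLS ℓ) {M : Type u} [L.Structure M]
    (hM : K.mem M) {A : Set (L.Substructure M)} (hA : BasisOf (kle K M) ⊤ A) (hM2 : ℓ < #M) :
    #M ≤ #A := by
  have hℓ := hK.1
  have h1 : #(⋃ T : A, (T.1 : Set M)) ≤ #A * ℓ := by
    refine (mk_iUnion_le _).trans (mul_le_mul' le_rfl ?_)
    exact ciSup_le' fun T => mk_atom_le hK hA.1 T.2
  obtain ⟨S, h2, h3, h4⟩ := hK.2.2 M hM (⋃ T : A, (T.1 : Set M))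
  have h5 : (⊤ : L.Substructure M) ≤ S := hA.2.2.2.2 S h2 le_top fun T hT x hx =>
    h3 (mem_iUnion.2 ⟨⟨T, hT⟩, hx⟩)
  have h6 : #M ≤ #S := mk_le_of_injective (f := fun x : M => (⟨x, h5 trivial⟩ : S))
    fun x y hxy => congrArg Subtype.val hxy
  have h7 : #M ≤ #A * ℓ + ℓ := h6.trans (h4.trans (add_le_add h1 le_rfl))
  by_contra h8
  rw [not_le] at h8
  have h9 : #A * ℓ + ℓ < #M := by
    refine add_lt_of_lt (hℓ.trans hM2.le) ?_ hM2
    exact mul_lt_of_lt (hℓ.trans hM2.le) h8 hM2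
  exact absurd h7 (not_le.2 h9)

section

variable {Λ : Type u}

/-- The Skolem structure: Skolem functions and enumerations of the atoms. -/
@[reducible] def skStr {M : Type u} (fn : ∀ n : ℕ, Λ → (Fin n → M) → M) (en : M → Λ → M) :
    (skLang (Λ ⊕ Λ)).Structure M where
  funMap := fun {n} (f : Λ ⊕ Λ) v => match f with
    | Sum.inl ξ => fn n ξ v
    | Sum.inr ξ => if h : 0 < n then en (v ⟨0, h⟩) ξ else fn n ξ v
  RelMap := fun {n} r => PEmpty.elim r

/-- The unary function symbol of an enumeration. -/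
def un (L : Language.{u, u}) {Λ : Type u} (ξ : Λ) : (exLang L (Λ ⊕ Λ)).Functions 1 :=
  Sum.inr (Sum.inr ξ : Λ ⊕ Λ)

end

theorem exists_locFam {K : AEC L} {ℓ : Cardinal.{u}} (hK : K.IsLS ℓ) {M₀ : Type u}
    [L.Structure M₀] (hM₀ : K.mem M₀) {A : Set (L.Substructure M₀)}
    (hA : BasisOf (kle K M₀) ⊤ A) (hbig : hanf (2 ^ ℓ) ≤ #M₀) (hbig2 : ℓ < #M₀) :
    Nonempty (LocFam K) := by
  classical
  have hℓ := hK.1
  obtain ⟨Λ, hΛ⟩ : ∃ Λ : Type u, #Λ = ℓ := ⟨ℓ.out, mk_out ℓ⟩
  have hne : Nonempty M₀ := by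
    rw [← mk_ne_zero_iff]
    exact ((aleph0_pos.trans_le hℓ).trans hbig2).ne'
  -- the elements
  have hp : ∀ T : A, ∃ x ∈ T.1, ∀ V, Lst (kle K M₀) ⊤ (A \ {T.1}) V → x ∉ V := by
    intro T
    obtain ⟨V, h1, h2⟩ := hA.1.2.2 (A \ {T.1}) sdiff_subset
    have h3 : ¬ T.1 ≤ V := fun h => (h2 T.1 T.2 h).2 rfl
    obtain ⟨x, hx, hxV⟩ := SetLike.not_le_iff_exists.1 h3
    exact ⟨x, hx, fun V' h4 => by rwa [h4.unique h1]⟩
  choose p hp1 hp2 using hp
  have hpinj : Injective p := by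
    intro T T' h
    by_contra hne
    obtain ⟨V, h1, -⟩ := hA.1.2.2 (A \ {T'.1}) sdiff_subset
    apply hp2 T' V h1
    rw [← h]
    exact h1.2.2.1 T.1 ⟨T.2, fun h4 => hne (Subtype.ext h4)⟩ (hp1 T)
  have hcardT : ∀ T : A, #T.1 ≤ ℓ := fun T => mk_atom_le hK hA.1 T.2
  -- the hull
  let c₀ : Finset M₀ → Set M₀ := fun F => ⋃ x : F, {y | ∃ T : A, p T = x ∧ y ∈ T.1}
  have hc₀ : ∀ F, #(c₀ F) ≤ ℓ := by
    intro F
    refine (mk_iUnion_le _).trans ?_
    refine (mul_le_mul' (b := ℵ₀) (d := ℓ) (lt_aleph0_of_finite _).le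
      (ciSup_le' fun x => ?_)).trans (mul_le_of_le hℓ hℓ le_rfl)
    by_cases hx : ∃ T : A, p T = x
    · obtain ⟨T, hT⟩ := hx
      refine le_trans (mk_le_mk_of_subset ?_) (hcardT T)
      rintro y ⟨T', h1, h2⟩
      have : T' = T := hpinj (h1.trans hT.symm)
      rwa [this] at h2
    · have h1 : {y | ∃ T : A, p T = x ∧ y ∈ T.1} = ∅ := by
        ext y
        simp only [mem_setOf_eq, mem_empty_iff_false, iff_false]
        rintro ⟨T, h2, -⟩
        exact hx ⟨T, h2⟩
      rw [h1, mk_emptyCollection]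
      exact bot_le
  obtain ⟨fn, hfn⟩ := Gr.exists_skolem hK hM₀ c₀ hc₀ hΛ.ge
  have hen : ∀ T : A, ∃ e : Λ → M₀, range e = (T.1 : Set M₀) := by
    intro T
    have h1 : Nonempty T.1 := ⟨⟨p T, hp1 T⟩⟩
    have h2 := hcardT T
    rw [← hΛ] at h2
    obtain ⟨f⟩ := (Cardinal.le_def _ _).1 h2
    refine ⟨fun ξ => (Function.invFun f ξ : T.1).1, ?_⟩
    ext y
    constructor
    · rintro ⟨q, rfl⟩
      exact (Function.invFun f q).2
    · intro hy
      refine ⟨f ⟨y, hy⟩, ?_⟩
      simp only [Function.leftInverse_invFun f.injective ⟨y, hy⟩]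
  choose en₀ hen₀ using hen
  let en : M₀ → Λ → M₀ := fun x => if h : ∃ T : A, p T = x then en₀ h.choose else fun _ => x
  have hen1 : ∀ T : A, range (en (p T)) = (T.1 : Set M₀) := by
    intro T
    have h : ∃ T' : A, p T' = p T := ⟨T, rfl⟩
    have h1 : h.choose = T := hpinj h.choose_spec
    simp only [en, dif_pos h, h1, hen₀]
  let sk : (skLang (Λ ⊕ Λ)).Structure M₀ := skStr fn en
  have hsk : ∀ S : (exLang L (Λ ⊕ Λ)).Substructure M₀,
      K.le ((exHom L (Λ ⊕ Λ)).substructureReduct S) ∧ ∀ T : A, p T ∈ S →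
        T.1 ≤ (exHom L (Λ ⊕ Λ)).substructureReduct S := by
    intro S
    obtain ⟨⟨S', h1, h2⟩, h3⟩ := hfn (S : Set M₀) (by
      intro n ξ v hv
      have h4 := S.fun_mem (n := n) (Sum.inr (Sum.inl ξ : Λ ⊕ Λ)) v hv
      exact h4)
    have h5 : S' = (exHom L (Λ ⊕ Λ)).substructureReduct S := SetLike.coe_injective (by
      rw [h2]
      rfl)
    refine ⟨h5 ▸ h1, fun T hT y hy => ?_⟩
    have h6 := h3 {p T} (by simpa using hT)
    apply h6
    refine mem_iUnion.2 ⟨⟨p T, by simp⟩, T, rfl, hy⟩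
  have hun : ∀ (ξ : Λ) (x : M₀), funMap (L := exLang L (Λ ⊕ Λ)) (un L ξ) ![x] = en x ξ := by
    intro ξ x
    change (if h : 0 < 1 then en ((![x] : Fin 1 → M₀) ⟨0, h⟩) ξ else fn 1 ξ ![x]) = en x ξ
    rw [dif_pos one_pos]
    rfl
  have hΛ2 : #(Λ ⊕ Λ) ≤ ℓ := by
    rw [mk_sum, lift_id, hΛ]
    exact add_le_of_le hℓ le_rfl le_rfl
  have hL : (exLang L (Λ ⊕ Λ)).card ≤ ℓ := card_exLang_le hℓ hK.2.1 hΛ2
  -- the template
  obtain ⟨x⟩ : Nonempty ((#A).ord.ToType ≃ A) := Cardinal.eq.1 (by rw [mk_ord_toType])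
  obtain ⟨a', ha1, ha2⟩ := exists_template (L := exLang L (Λ ⊕ Λ)) hℓ hL (fun z => p (x z)) (by
    rw [mk_ord_toType]
    exact hbig.trans (mk_basis hK hM₀ hA hbig2))
  let At : ∀ n : ℕ, Fin n → A := fun n i => x (a' n i)
  have hAt : ∀ n, Injective (At n) := fun n => x.injective.comp (ha1 n).injective
  let a : ∀ n : ℕ, Fin n → M₀ := fun n i => p (At n i)
  have ha : IsTemplate (exLang L (Λ ⊕ Λ)) a := ha2
  choose N hN c hc htop using fun (I : Type u) (lo : LinearOrder I) =>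
    exists_isEM (L := exLang L (Λ ⊕ Λ)) (M := M₀) ha I
  let str : ∀ (I : Type u) (lo : LinearOrder I), L.Structure (N I lo) := fun I lo =>
    (exHom L (Λ ⊕ Λ)).reduct (N I lo)
  have hexp : ∀ (I : Type u) (lo : LinearOrder I),
      (exHom L (Λ ⊕ Λ)).IsExpansionOn (N I lo) :=
    fun I lo => Language.LHom.isExpansionOn_reduct _ _
  have hem : ∀ (I : Type u) (lo : LinearOrder I) (J : Set I),
      K.le ((exHom L (Λ ⊕ Λ)).substructureReduct
        (Substructure.closure (exLang L (Λ ⊕ Λ)) (c I lo '' J))) :=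
    fun I lo J => (em_le (K := K) (exHom L (Λ ⊕ Λ)) (hc I lo) (htop I lo)
      fun S => (hsk S).1).2 J
  have hat : ∀ (I J : Type u) (lo : LinearOrder I) (lo' : LinearOrder J) (f : I ↪o J),
      AtEq (exLang L (Λ ⊕ Λ)) (c I lo) (fun i => c J lo' (f i)) := by
    intro I J lo lo' f
    exact IsEM.pattern (hc I lo) (hc J lo') (fun i => i) (fun i => f i)
      (fun p q => f.le_iff_le.symm)
  choose g hg using fun (I J : Type u) (lo : LinearOrder I) (lo' : LinearOrder J) (f : I ↪o J) =>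
    exists_emb_of_atEq (hat I J lo lo' f) (htop I lo)
  have hterm : ∀ (I : Type u) (lo : LinearOrder I) (y : N I lo),
      ∃ t : (exLang L (Λ ⊕ Λ)).Term I, t.realize (c I lo) = y := fun I lo y =>
    Gr.mem_closure_range.1 (by rw [htop]; trivial)
  have hrange : ∀ (I J : Type u) (lo : LinearOrder I) (lo' : LinearOrder J) (f : I ↪o J),
      (Gr.embReduct (exHom L (Λ ⊕ Λ)) (g I J lo lo' f)).toHom.range =
        (exHom L (Λ ⊕ Λ)).substructureReduct
          (Substructure.closure (exLang L (Λ ⊕ Λ)) (c J lo' '' range f)) := by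
    intro I J lo lo' f
    have h5 : c J lo' '' range f = range (fun i => c J lo' (f i)) := by
      rw [← range_comp]
      rfl
    rw [h5]
    ext y
    constructor
    · rintro ⟨z, rfl⟩
      obtain ⟨t, rfl⟩ := hterm I lo z
      refine Gr.mem_closure_range.2 ⟨t, ?_⟩
      exact (hg I J lo lo' f t).symm
    · intro hy
      obtain ⟨t, rfl⟩ := Gr.mem_closure_range.1 hy
      exact ⟨t.realize (c I lo), hg I J lo lo' f t⟩
  have hgc : ∀ (I J : Type u) (lo : LinearOrder I) (lo' : LinearOrder J) (f : I ↪o J) (i : I),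
      g I J lo lo' f (c I lo i) = c J lo' (f i) := fun I J lo lo' f i =>
    hg I J lo lo' f (Term.var i)
  -- the comparison with the given model
  let Fn : ℕ → Type u := fun n => ULift.{u} (Fin n)
  have hat2 : ∀ n : ℕ, AtEq (exLang L (Λ ⊕ Λ)) (c (Fn n) inferInstance)
      (fun i : Fn n => a n i.down) := by
    intro n
    have h1 := hc (Fn n) inferInstance n (fun i => ULift.up i) (fun i j h => h)
    exact h1.comp ULift.down
  choose G hG using fun n : ℕ => exists_emb_of_atEq (hat2 n) (htop (Fn n) inferInstance)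
  have hGc : ∀ (n : ℕ) (i : Fn n), G n (c (Fn n) inferInstance i) = a n i.down := fun n i =>
    hG n (Term.var i)
  have hGun : ∀ (n : ℕ) (ξ : Λ) (z : N (Fn n) inferInstance),
      G n (funMap (un L ξ) ![z]) = en (G n z) ξ := by
    intro n ξ z
    rw [(G n).map_fun, ← hun]
    congr 1
    funext q
    fin_cases q
    rfl
  have hgun : ∀ (I J : Type u) (lo : LinearOrder I) (lo' : LinearOrder J) (f : I ↪o J) (ξ : Λ)
      (z : N I lo), g I J lo lo' f (funMap (un L ξ) ![z]) =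
        funMap (un L ξ) ![g I J lo lo' f z] := by
    intro I J lo lo' f ξ z
    rw [(g I J lo lo' f).map_fun]
    congr 1
    funext q
    fin_cases q
    rfl
  have hcom : ∀ (n : ℕ) (k : Fn n) (z : N (Fn n) inferInstance),
      G n z ∈ (At n k.down).1 ↔ ∃ ξ : Λ, funMap (un L ξ) ![c (Fn n) inferInstance k] = z := by
    intro n k z
    rw [← SetLike.mem_coe, ← hen1]
    constructor
    · rintro ⟨ξ, hξ⟩
      refine ⟨ξ, (G n).injective ?_⟩
      rw [hGun, hGc]
      exact hξ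
    · rintro ⟨ξ, rfl⟩
      rw [hGun, hGc]
      exact ⟨ξ, rfl⟩
  let pt : ∀ {I : Type u} [LinearOrder I], I → (Fn 1 ↪o I) := fun {I} _ i =>
    { toFun := fun _ => i
      inj' := fun _ _ _ => Subsingleton.elim _ _
      map_rel_iff' := fun {a b} => by
        rw [Subsingleton.elim a b]
        simp }
  let e0 : Fn 1 := ULift.up 0
  let φ : ∀ n, N (Fn n) inferInstance ↪[L] M₀ := fun n => Gr.embReduct (exHom L (Λ ⊕ Λ)) (G n)
  let gL : ∀ {I J : Type u} [lo : LinearOrder I] [lo' : LinearOrder J] (_ : I ↪o J),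
      (N I lo ↪[L] N J lo') := fun {I J lo lo'} f =>
    Gr.embReduct (exHom L (Λ ⊕ Λ)) (g I J lo lo' f)
  have hφ : ∀ n, K.Emb (φ n) := by
    intro n
    have h1 := (hsk (G n).toHom.range).1
    have h2 : (φ n).toHom.range = (exHom L (Λ ⊕ Λ)).substructureReduct (G n).toHom.range := rfl
    unfold AEC.Emb
    rw [h2]
    exact h1
  have hAr : ∀ (n : ℕ) (k : Fn n), (At n k.down).1 ≤ (φ n).toHom.range := by
    intro n k
    have h1 := (hsk (G n).toHom.range).2 (At n k.down) ⟨c (Fn n) inferInstance k, hGc n k⟩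
    exact h1
  let U₁ : L.Substructure (N (Fn 1) inferInstance) := (At 1 e0.down).1.comap (φ 1).toHom
  let U : ∀ (I : Type u) [lo : LinearOrder I], I → L.Substructure (N I lo) := fun I lo i =>
    U₁.map (gL (pt i)).toHom
  have hU : ∀ (I : Type u) [lo : LinearOrder I] (i : I) (y : N I lo),
      y ∈ U I i ↔ ∃ ξ : Λ, funMap (un L ξ) ![c I lo i] = y := by
    intro I lo i y
    constructor
    · rintro ⟨z, hz, rfl⟩
      obtain ⟨ξ, hξ⟩ := (hcom 1 e0 z).1 hz
      refine ⟨ξ, ?_⟩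
      rw [← hξ]
      change _ = g (Fn 1) I inferInstance lo (pt i) _
      rw [hgun, hgc]
      rfl
    · rintro ⟨ξ, rfl⟩
      refine ⟨funMap (un L ξ) ![c (Fn 1) inferInstance e0], (hcom 1 e0 _).2 ⟨ξ, rfl⟩, ?_⟩
      change g (Fn 1) I inferInstance lo (pt i) _ = _
      rw [hgun, hgc]
      rfl
  have hmU : ∀ (n : ℕ) (k : Fn n), (U (Fn n) k).map (φ n).toHom = (At n k.down).1 := by
    intro n k
    have h1 : U (Fn n) k = (At n k.down).1.comap (φ n).toHom := by
      ext y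
      rw [hU]
      exact (hcom n k y).symm
    rw [h1]
    exact map_comap (φ n) (hAr n k)
  have himg : ∀ (n : ℕ) (B : Set (Fn n)),
      (fun X : L.Substructure _ => X.map (φ n).toHom) '' (U (Fn n) '' B) =
        (fun k : Fn n => (At n k.down).1) '' B := by
    intro n B
    rw [image_image]
    exact image_congr fun k _ => hmU n k
  refine ⟨{ obj := fun I lo => N I lo, str := fun I lo => str I lo,
            map := fun {I J lo lo'} f => gL f, map_refl := ?_, map_trans := ?_, emb := ?_,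
            U := fun I lo => U I, c := fun I lo => c I lo, map_c := ?_, map_U := ?_,
            c_mem := ?_, loc := ?_, sep := ?_ }⟩
  · intro I lo y
    obtain ⟨t, rfl⟩ := hterm I lo y
    exact hg I I lo lo _ t
  · intro I J T lo lo' lo'' i j y
    obtain ⟨t, rfl⟩ := hterm I lo y
    have h5 := hg I T lo lo'' (i.trans j) t
    have h6 := hg I J lo lo' i t
    have h7 := hg J T lo' lo'' j (t.relabel i)
    rw [Term.realize_relabel, Term.realize_relabel] at h7
    change g I T lo lo'' (i.trans j) _ = g J T lo' lo'' j (g I J lo lo' i _)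
    rw [h5, h6]
    exact h7.symm
  · intro I J lo lo' f
    unfold AEC.Emb
    change K.le (Gr.embReduct (exHom L (Λ ⊕ Λ)) (g I J lo lo' f)).toHom.range
    rw [hrange]
    exact hem J lo' _
  · intro I J lo lo' f i
    exact hgc I J lo lo' f i
  · intro I J lo lo' f i
    ext y
    rw [hU]
    constructor
    · rintro ⟨z, hz, rfl⟩
      obtain ⟨ξ, rfl⟩ := (hU I i z).1 hz
      refine ⟨ξ, ?_⟩
      change _ = g I J lo lo' f _
      rw [hgun, hgc]
    · rintro ⟨ξ, rfl⟩
      refine ⟨funMap (un L ξ) ![c I lo i], (hU I i _).2 ⟨ξ, rfl⟩, ?_⟩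
      change g I J lo lo' f _ = _
      rw [hgun, hgc]
  · intro I lo i
    refine ⟨c (Fn 1) inferInstance e0, ?_, hgc _ _ _ _ _ _⟩
    change G 1 (c (Fn 1) inferInstance e0) ∈ (At 1 e0.down).1
    rw [hGc]
    exact hp1 _
  · intro n
    have h1 : (range (U (Fn n))) = U (Fn n) '' univ := image_univ.symm
    rw [h1, ← free_map_iff (φ n) (hφ n), himg]
    have h2 : (fun k : Fn n => (At n k.down).1) '' univ ⊆ A := by
      rintro _ ⟨k, -, rfl⟩
      exact (At n k.down).2
    refine (hA.1.mono h2).down (le_map (φ n) (hφ n) (K.le_refl (hφ n).mem_left)) le_top ?_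
    rintro _ ⟨k, -, rfl⟩
    rw [← Hom.range_eq_map]
    exact hAr n k
  · intro n k B hk V hV hck
    have h1 := (lst_map_iff (φ n) (hφ n)).2 hV
    rw [himg] at h1
    have h2 : (fun k : Fn n => (At n k.down).1) '' B ⊆ A := by
      rintro _ ⟨k, -, rfl⟩
      exact (At n k.down).2
    have h3 := h1.up (hA.1) h2 (le_map (φ n) (hφ n) (K.le_refl (hφ n).mem_left)) le_top
    obtain ⟨W, hW, -⟩ := hA.1.2.2 (A \ {(At n k.down).1}) sdiff_subset
    apply hp2 (At n k.down) W hW
    apply h3.2.2.2 W hW.1 le_top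
    · rintro _ ⟨j, hj, rfl⟩
      refine hW.2.2.1 _ ⟨(At n j.down).2, fun h4 => ?_⟩
      have h5 : j.down = k.down := hAt n (Subtype.ext h4)
      have h6 : j = k := ULift.ext _ _ h5
      exact hk (h6 ▸ hj)
    · exact ⟨_, hck, hGc n k⟩

end Vale.Agent.P307.H479.E
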