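import Vale.Agent.P307.H479.E.Defs
import Vale.Agent.P307.Ow.Lat

/-! Free sets of strong substructures: absoluteness, finitarity, transport. -/

universe u

open FirstOrder Cardinal Set Function Language

namespace Vale.Agent.P307.H479.E

open Ow (le_map le_comap map_comap map_le_range)

section str

variable {L : Language.{u, u}} {M : Type u} [L.Structure M] {str : L.Substructure M → Prop}
  {S T U U' : L.Substructure M} {A B : Set (L.Substructure M)}

theorem Lst.unique (h : Lst str S B U) (h' : Lst str S B U') : U = U' :=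
  le_antisymm (h.2.2.2 U' h'.1 h'.2.1 h'.2.2.1) (h'.2.2.2 U h.1 h.2.1 h.2.2.1)

theorem Lst.down (h : Lst str T B U) (hS : str S) (hST : S ≤ T) (hB : ∀ X ∈ B, X ≤ S) :
    Lst str S B U :=
  ⟨h.1, h.2.2.2 S hS hST hB, h.2.2.1, fun V hV hVS hBV => h.2.2.2 V hV (hVS.trans hST) hBV⟩

theorem FreeIn.down (h : FreeIn str T A) (hS : str S) (hST : S ≤ T) (hA : ∀ X ∈ A, X ≤ S) :
    FreeIn str S A := by
  refine ⟨fun X hX => ⟨(h.1 X hX).1, hA X hX⟩, fun X hX X' hX' hXX' => ?_, fun B hB => ?_⟩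
  · rcases h.2.1 X hX X' hX' hXX' with h1 | h1
    · exact Or.inl h1
    · exact Or.inr (h1.down hS hST (fun _ h => absurd h (notMem_empty _)))
  · obtain ⟨U, h1, h2⟩ := h.2.2 B hB
    exact ⟨U, h1.down hS hST fun X hX => hA X (hB hX), h2⟩

theorem FreeIn.mono (h : FreeIn str S A) (hBA : B ⊆ A) : FreeIn str S B := by
  refine ⟨fun X hX => h.1 X (hBA hX), fun X hX => h.2.1 X (hBA hX), fun C hC => ?_⟩
  obtain ⟨U, h1, h2⟩ := h.2.2 C (hC.trans hBA)
  exact ⟨U, h1, fun X hX hXU => h2 X (hBA hX) hXU⟩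

theorem Lst.up (h : Lst str S B U) (hA : FreeIn str T A) (hBA : B ⊆ A) (hS : str S)
    (hST : S ≤ T) : Lst str T B U := by
  obtain ⟨U', h1, -⟩ := hA.2.2 B hBA
  have h2 : Lst str S B U' := h1.down hS hST fun X hX => (h.2.2.1 X hX).trans h.2.1
  rwa [h.unique h2]

/-- Free sets extend to bases. -/
def Ext (str : L.Substructure M → Prop) : Prop :=
  ∀ S T : L.Substructure M, str S → str T → S ≤ T → ∀ A, FreeIn str S A →
    ∃ B, A ⊆ B ∧ BasisOf str T B

theorem Ext.up (h : Ext str) (hS : str S) (hT : str T) (hST : S ≤ T) (hA : FreeIn str S A) :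
    FreeIn str T A := by
  obtain ⟨B, h1, h2⟩ := h S T hS hT hST A hA
  exact h2.1.mono h1

theorem HasBases.ext {aut : (M ≃[L] M) → Prop} (h : HasBases str aut) : Ext str := h.2.1

end str

section emb

variable {L : Language.{u, u}} {K : AEC L} {M N : Type u} [L.Structure M] [L.Structure N]

/-- The property of being strong. -/
abbrev kle (K : AEC L) (M : Type u) [L.Structure M] : L.Substructure M → Prop :=
  fun S => K.le S

variable (φ : M ↪[L] N) (hφ : K.Emb φ)

theorem map_le_iff {S T : L.Substructure M} : S.map φ.toHom ≤ T.map φ.toHom ↔ S ≤ T :=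
  Substructure.map_le_map_iff_of_injective (f := φ.toHom) φ.injective

theorem map_inj {S T : L.Substructure M} (h : S.map φ.toHom = T.map φ.toHom) : S = T :=
  Substructure.map_injective_of_injective (f := φ.toHom) φ.injective h

theorem comap_map_eq (S : L.Substructure M) : (S.map φ.toHom).comap φ.toHom = S :=
  map_inj φ (map_comap φ (map_le_range φ S))

include hφ

theorem le_map_iff {S : L.Substructure M} : K.le (S.map φ.toHom) ↔ K.le S := by
  refine ⟨fun h => ?_, le_map φ hφ⟩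
  have h1 := le_comap φ hφ h (map_le_range φ S)
  rwa [comap_map_eq] at h1

theorem lst_map_iff {S U : L.Substructure M} {B : Set (L.Substructure M)} :
    Lst (kle K N) (S.map φ.toHom) ((fun X => X.map φ.toHom) '' B) (U.map φ.toHom) ↔
      Lst (kle K M) S B U := by
  constructor
  · rintro ⟨h1, h2, h3, h4⟩
    refine ⟨(le_map_iff φ hφ).1 h1, (map_le_iff φ).1 h2, fun X hX => (map_le_iff φ).1
      (h3 _ ⟨X, hX, rfl⟩), fun V hV hVS hBV => (map_le_iff φ).1 (h4 _ ((le_map_iff φ hφ).2 hV)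
        ((map_le_iff φ).2 hVS) ?_)⟩
    rintro _ ⟨X, hX, rfl⟩
    exact (map_le_iff φ).2 (hBV X hX)
  · rintro ⟨h1, h2, h3, h4⟩
    refine ⟨(le_map_iff φ hφ).2 h1, (map_le_iff φ).2 h2, ?_, fun V hV hVS hBV => ?_⟩
    · rintro _ ⟨X, hX, rfl⟩
      exact (map_le_iff φ).2 (h3 X hX)
    · have h5 : V ≤ φ.toHom.range := hVS.trans (map_le_range φ S)
      have h6 := map_comap φ h5
      rw [← h6]
      refine (map_le_iff φ).2 (h4 _ (le_comap φ hφ hV h5) ?_ fun X hX => ?_)
      · rw [← map_le_iff φ, h6]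
        exact hVS
      · rw [← map_le_iff φ, h6]
        exact hBV _ ⟨X, hX, rfl⟩

theorem free_map_iff {S : L.Substructure M} {A : Set (L.Substructure M)} :
    FreeIn (kle K N) (S.map φ.toHom) ((fun X => X.map φ.toHom) '' A) ↔
      FreeIn (kle K M) S A := by
  have h0 : (∅ : Set (L.Substructure N)) =
      (fun X : L.Substructure M => X.map φ.toHom) '' (∅ : Set (L.Substructure M)) := by
    rw [image_empty]
  constructor
  · rintro ⟨h1, h2, h3⟩
    refine ⟨fun X hX => ?_, fun X hX X' hX' hXX' => ?_, fun B hB => ?_⟩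
    · obtain ⟨h4, h5⟩ := h1 _ ⟨X, hX, rfl⟩
      exact ⟨(le_map_iff φ hφ).1 h4, (map_le_iff φ).1 h5⟩
    · rcases h2 _ ⟨X, hX, rfl⟩ (X'.map φ.toHom) ((le_map_iff φ hφ).2 hX')
        ((map_le_iff φ).2 hXX') with h4 | h4
      · exact Or.inl (map_inj φ h4)
      · rw [h0] at h4
        exact Or.inr ((lst_map_iff φ hφ).1 h4)
    · obtain ⟨U, h4, h5⟩ := h3 _ (image_mono hB)
      have h6 : U ≤ φ.toHom.range := h4.2.1.trans (map_le_range φ S)
      have h7 := map_comap φ h6
      refine ⟨U.comap φ.toHom, ?_, fun X hX hXU => ?_⟩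
      · rw [← lst_map_iff φ hφ, h7]
        exact h4
      · obtain ⟨Y, hY, hYX⟩ := h5 _ ⟨X, hX, rfl⟩ (by
          rw [← h7]
          exact (map_le_iff φ).2 hXU)
        rwa [← map_inj φ hYX]
  · rintro ⟨h1, h2, h3⟩
    refine ⟨?_, ?_, fun B hB => ?_⟩
    · rintro _ ⟨X, hX, rfl⟩
      obtain ⟨h4, h5⟩ := h1 X hX
      exact ⟨(le_map_iff φ hφ).2 h4, (map_le_iff φ).2 h5⟩
    · rintro _ ⟨X, hX, rfl⟩ X' hX' hXX'
      have h6 : X' ≤ φ.toHom.range := hXX'.trans (map_le_range φ X)
      have h7 := map_comap φ h6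
      rcases h2 X hX (X'.comap φ.toHom) (le_comap φ hφ hX' h6) (by
        rw [← map_le_iff φ, h7]
        exact hXX') with h4 | h4
      · left
        rw [← h7, h4]
      · right
        rw [h0, ← h7, lst_map_iff φ hφ]
        exact h4
    · obtain ⟨C, hC, rfl⟩ := subset_image_iff.1 hB
      obtain ⟨U, h4, h5⟩ := h3 C hC
      refine ⟨U.map φ.toHom, (lst_map_iff φ hφ).2 h4, ?_⟩
      rintro _ ⟨X, hX, rfl⟩ hXU
      exact ⟨X, h5 X hX ((map_le_iff φ).1 hXU), rfl⟩

theorem basis_map_iff {S : L.Substructure M} {A : Set (L.Substructure M)} :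
    BasisOf (kle K N) (S.map φ.toHom) ((fun X => X.map φ.toHom) '' A) ↔
      BasisOf (kle K M) S A :=
  and_congr (free_map_iff φ hφ) (lst_map_iff φ hφ)

theorem Ext.of_emb (h : Ext (kle K N)) : Ext (kle K M) := by
  intro S T hS hT hST A hA
  obtain ⟨B, h1, h2⟩ := h (S.map φ.toHom) (T.map φ.toHom) (le_map φ hφ hS) (le_map φ hφ hT)
    ((map_le_iff φ).2 hST) _ ((free_map_iff φ hφ).2 hA)
  have h3 : (fun X : L.Substructure M => X.map φ.toHom) '' {X | X.map φ.toHom ∈ B} = B := by
    ext Y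
    constructor
    · rintro ⟨X, hX, rfl⟩
      exact hX
    · intro hY
      have h4 : Y ≤ φ.toHom.range := (h2.1.1 Y hY).2.trans (map_le_range φ T)
      refine ⟨Y.comap φ.toHom, ?_, map_comap φ h4⟩
      change (Y.comap φ.toHom).map φ.toHom ∈ B
      rwa [map_comap φ h4]
  refine ⟨{X | X.map φ.toHom ∈ B}, fun X hX => h1 ⟨X, hX, rfl⟩, ?_⟩
  rw [← basis_map_iff φ hφ, h3]
  exact h2

end emb

section fin

variable {L : Language.{u, u}} {K : AEC L} {M : Type u} [L.Structure M]

/-- A set all of whose finite subsets are free is free, if its members are separated by elements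
from the spans of the finite sets of other members. -/
theorem free_of_fin {A : Set (L.Substructure M)}
    (hfin : ∀ F : Finset (L.Substructure M), (F : Set (L.Substructure M)) ⊆ A →
      FreeIn (kle K M) ⊤ (F : Set (L.Substructure M)))
    (hel : ∀ T ∈ A, ∃ c ∈ T, ∀ F : Finset (L.Substructure M), (F : Set (L.Substructure M)) ⊆ A →
      T ∉ F → ∀ U, Lst (kle K M) ⊤ (F : Set (L.Substructure M)) U → c ∉ U) :
    FreeIn (kle K M) ⊤ A ∧ ∀ B ⊆ A, ∀ U, Lst (kle K M) ⊤ B U → ∀ x ∈ U,
      ∃ F : Finset (L.Substructure M), (F : Set (L.Substructure M)) ⊆ B ∧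
        ∀ V, Lst (kle K M) ⊤ (F : Set (L.Substructure M)) V → x ∈ V := by
  classical
  have key : ∀ B ⊆ A, ∃ U, Lst (kle K M) ⊤ B U ∧ ∀ x ∈ U,
      ∃ F : Finset (L.Substructure M), (F : Set (L.Substructure M)) ⊆ B ∧
        ∀ V, Lst (kle K M) ⊤ (F : Set (L.Substructure M)) V → x ∈ V := by
    intro B hB
    have h1 : ∀ F : Finset B, ∃ U, Lst (kle K M) ⊤
        ((F.map (Embedding.subtype _) : Finset (L.Substructure M)) : Set (L.Substructure M))
          U := by
      intro F
      have h2 : ((F.map (Embedding.subtype _) : Finset (L.Substructure M)) :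
          Set (L.Substructure M)) ⊆ A := by
        intro X hX
        simp only [Finset.coe_map, Embedding.subtype_apply, mem_image] at hX
        obtain ⟨Y, -, rfl⟩ := hX
        exact hB Y.2
      obtain ⟨U, h3, -⟩ := (hfin _ h2).2.2 _ subset_rfl
      exact ⟨U, h3⟩
    choose U hU using h1
    have hm : Monotone U := by
      intro F G hFG
      refine (hU F).2.2.2 _ (hU G).1 le_top fun X hX => (hU G).2.2.1 X ?_
      exact Finset.coe_subset.2 (Finset.map_subset_map.2 hFG) hX
    have hs : K.le (⨆ F, U F) := AEC.le_iSup_finset U hm fun F => (hU F).1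
    refine ⟨⨆ F, U F, ⟨hs, le_top, fun X hX => ?_, fun V hV _ hBV => ?_⟩, fun x hx => ?_⟩
    · refine le_trans ((hU {⟨X, hX⟩}).2.2.1 X ?_) (le_iSup U {⟨X, hX⟩})
      simp
    · refine iSup_le fun F => (hU F).2.2.2 V hV le_top fun X hX => ?_
      simp only [Finset.coe_map, Embedding.subtype_apply, mem_image] at hX
      obtain ⟨Y, -, rfl⟩ := hX
      exact hBV _ Y.2
    · rw [Substructure.mem_iSup_of_directed (directed_of_isDirected_le hm)] at hx
      obtain ⟨F, hF⟩ := hx
      refine ⟨F.map (Embedding.subtype _), ?_, fun V hV => ?_⟩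
      · intro X hX
        simp only [Finset.coe_map, Embedding.subtype_apply, mem_image] at hX
        obtain ⟨Y, -, rfl⟩ := hX
        exact Y.2
      · rwa [hV.unique (hU F)]
  constructor
  · refine ⟨fun X hX => ?_, fun X hX X' hX' hXX' => ?_, fun B hB => ?_⟩
    · exact (hfin {X} (by simpa using hX)).1 X (by simp)
    · exact (hfin {X} (by simpa using hX)).2.1 X (by simp) X' hX' hXX'
    · obtain ⟨U, h1, h2⟩ := key B hB
      refine ⟨U, h1, fun X hX hXU => ?_⟩
      by_contra hXB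
      obtain ⟨c, hc, hc2⟩ := hel X hX
      obtain ⟨F, h3, h4⟩ := h2 c (hXU hc)
      obtain ⟨V, h5, -⟩ := (hfin F (h3.trans hB)).2.2 _ subset_rfl
      exact hc2 F (h3.trans hB) (fun h => hXB (h3 h)) V h5 (h4 V h5)
  · intro B hB U hU x hx
    obtain ⟨U', h1, h2⟩ := key B hB
    rw [hU.unique h1] at hx
    exact h2 x hx

end fin

end Vale.Agent.P307.H479.E
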