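import Vale.Agent.P307.H479.E.Free
import Vale.Agent.P307.Fm.Sys
import Vale.Agent.P307.Ow.EM

/-! Ehrenfeucht-Mostowski functors with frames. -/

universe u

open FirstOrder Cardinal Set Function Language

namespace Vale.Agent.P307.H479.E

open Language.Structure
open Fm (FrameIn FrameOf LocSys)
open Ow (le_map le_comap map_comap map_le_range exists_emb_of_atEq)

variable {L : Language.{u, u}}

section frame

variable {K : AEC L} {M : Type u} [L.Structure M] {X Y : Type u} {S : L.Substructure M}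
  {A : Finset X → L.Substructure M}

theorem frame_mono {str : L.Substructure M → Prop} (hA : FrameIn str S A) {s t : Finset X}
    (h : s ⊆ t) : A s ≤ A t := by
  have h1 := hA.2.1 s t s fun x => ⟨fun hx => ⟨hx, h hx⟩, fun hx => hx.1⟩
  rw [← h1]
  exact inf_le_right

theorem frame_map {str : L.Substructure M → Prop} (hA : FrameIn str S A) (j : Y ↪ X) :
    FrameIn str S fun s : Finset Y => A (s.map j) := by
  have hsub : ∀ (s : Finset Y) (t : Finset X), t ⊂ s.map j → ∃ u, u ⊂ s ∧ t = u.map j := by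
    intro s t ht
    obtain ⟨u, hu, rfl⟩ := Finset.subset_map_iff.1 ht.1
    exact ⟨u, ⟨hu, fun h4 => ht.2 (Finset.map_subset_map.2 h4)⟩, rfl⟩
  refine ⟨fun s => hA.1 _, fun s t r h => hA.2.1 _ _ _ fun x => ?_, fun s t h => ?_,
    fun s V h1 h2 h3 => ?_⟩
  · simp only [Finset.mem_map]
    constructor
    · rintro ⟨y, hy, rfl⟩
      exact ⟨⟨y, ((h y).1 hy).1, rfl⟩, ⟨y, ((h y).1 hy).2, rfl⟩⟩
    · rintro ⟨⟨y, hy, rfl⟩, ⟨z, hz, hzy⟩⟩
      have : z = y := j.injective hzy
      subst this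
      exact ⟨z, (h z).2 ⟨hy, hz⟩, rfl⟩
  · exact Finset.map_subset_map.1 (hA.2.2.1 _ _ h)
  · rcases hA.2.2.2 _ V h1 h2 (fun t ht => by
      obtain ⟨u, hu, rfl⟩ := hsub s t ht
      exact h3 u hu) with h4 | ⟨t, ht, h4⟩
    · exact Or.inl h4
    · obtain ⟨u, hu, rfl⟩ := hsub s t ht
      exact Or.inr ⟨u, hu, h4⟩

theorem frame_of_map {N : Type u} [L.Structure N] (φ : M ↪[L] N) (hφ : K.Emb φ)
    {B : Finset X → L.Substructure N} (hB : FrameIn (kle K N) ⊤ B)
    (h : ∀ s, (A s).map φ.toHom = B s) : FrameIn (kle K M) ⊤ A := by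
  refine ⟨fun s => ⟨?_, le_top⟩, fun s t r hr => ?_, fun s t hst => ?_, fun s V h1 h2 h3 => ?_⟩
  · exact (le_map_iff φ hφ).1 ((h s).symm ▸ (hB.1 s).1)
  · have h4 := hB.2.1 s t r hr
    rw [← h, ← h, ← h] at h4
    apply map_inj φ
    rw [← h4]
    ext x
    constructor
    · rintro ⟨y, ⟨hy1, hy2⟩, rfl⟩
      exact ⟨⟨y, hy1, rfl⟩, ⟨y, hy2, rfl⟩⟩
    · rintro ⟨⟨y, hy, rfl⟩, ⟨z, hz, hzy⟩⟩
      have h5 : z = y := φ.injective hzy
      rw [h5] at hz
      exact ⟨y, ⟨hy, hz⟩, rfl⟩
  · apply hB.2.2.1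
    rw [← h, ← h]
    exact (map_le_iff φ).2 hst
  · rcases hB.2.2.2 s (V.map φ.toHom) ((le_map_iff φ hφ).2 h1) (by
      rw [← h]
      exact (map_le_iff φ).2 h2) (fun t ht => by
      rw [← h]
      exact (map_le_iff φ).2 (h3 t ht)) with h4 | ⟨t, ht, h4⟩
    · rw [← h] at h4
      exact Or.inl (map_inj φ h4)
    · rw [← h] at h4
      exact Or.inr ⟨t, ht, map_inj φ h4⟩

theorem mk_frame_le {ℓ : Cardinal.{u}} (hK : K.IsLS ℓ) (hA : FrameIn (kle K M) S A)
    (s : Finset X) : #(A s) ≤ ℓ := by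
  classical
  induction s using Finset.strongInduction with
  | H s ih =>
    have hTs : K.le (A s) := (hA.1 s).1
    let D : Set (A s) := ⋃ t : {t : Finset X // t ⊂ s}, {x | (x : M) ∈ A t.1}
    have hfin : Finite {t : Finset X // t ⊂ s} :=
      Finite.of_injective (β := {t : Finset X // t ∈ s.powerset})
        (fun t => ⟨t.1, Finset.mem_powerset.2 t.2.1⟩) fun t t' h =>
          Subtype.ext (congrArg (fun z : {t : Finset X // t ∈ s.powerset} => z.1) h)
    have hD : #D ≤ ℓ := by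
      refine (mk_iUnion_le_sum_mk).trans ((sum_le_sum _ (fun _ => ℓ) fun t => ?_).trans ?_)
      · refine le_trans (mk_le_of_injective
          (f := fun x : {x : A s | (x : M) ∈ A t.1} => (⟨x.1.1, x.2⟩ : A t.1)) ?_) (ih t.1 t.2)
        intro x y hxy
        have h9 : ((⟨x.1.1, x.2⟩ : A t.1) : M) = (⟨y.1.1, y.2⟩ : A t.1) := congrArg Subtype.val hxy
        exact Subtype.ext (Subtype.ext h9)
      · rw [sum_const]
        refine mul_le_of_le hK.1 ?_ ?_
        · rw [lift_id]
          exact (lt_aleph0_of_finite _).le.trans hK.1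
        · rw [lift_id]
    by_cases hall : ∀ y : A s, y ∈ D
    · exact (mk_le_of_injective (f := fun y : A s => (⟨y, hall y⟩ : D)) fun y z h =>
        congrArg Subtype.val h).trans hD
    push Not at hall
    obtain ⟨y₀, hy₀⟩ := hall
    obtain ⟨V, h2, h3, h4⟩ := hK.2.2 (A s) (K.mem_of_le _ hTs).1 (insert y₀ D)
    have h5 : K.le (V.map (A s).subtype.toHom) := K.le_trans _ _ h2 hTs
    have h6 : V.map (A s).subtype.toHom ≤ A s := by
      rintro _ ⟨y, -, rfl⟩
      exact y.2
    have h7 : V.map (A s).subtype.toHom = A s := by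
      rcases hA.2.2.2 s _ h5 h6 (fun t ht x hx => ⟨⟨x, frame_mono hA ht.1 hx⟩, h3
        (Or.inr (mem_iUnion.2 ⟨⟨t, ht⟩, hx⟩)), rfl⟩) with h7 | ⟨t, ht, h7⟩
      · exact h7
      · exfalso
        apply hy₀
        refine mem_iUnion.2 ⟨⟨t, ht⟩, ?_⟩
        change (y₀ : M) ∈ A t
        rw [← h7]
        exact ⟨y₀, h3 (Or.inl rfl), rfl⟩
    have h8 : #(A s) ≤ #V := by
      refine mk_le_of_injective (f := fun y : A s => (⟨y, ?_⟩ : V)) ?_
      · have h9 : (y : M) ∈ V.map (A s).subtype.toHom := by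
          rw [h7]
          exact y.2
        obtain ⟨z, hz, hzy⟩ := h9
        have : z = y := Subtype.ext hzy
        rw [← this]
        exact hz
      · intro y z hyz
        exact congrArg Subtype.val hyz
    refine h8.trans (h4.trans (add_le_of_le hK.1 ?_ le_rfl))
    exact mk_insert_le.trans (add_le_of_le hK.1 hD (one_le_aleph0.trans hK.1))

theorem mk_frameOf {ℓ : Cardinal.{u}} (hK : K.IsLS ℓ) (hA : FrameOf (kle K M) ⊤ A)
    (hM : ℓ < #M) : #M ≤ #X := by
  have h1 : #M ≤ #(Finset X) * ℓ := by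
    have h2 : (univ : Set M) ⊆ ⋃ s : Finset X, (A s : Set M) := fun a _ => by
      obtain ⟨s, hs⟩ := hA.2 a trivial
      exact mem_iUnion.2 ⟨s, hs⟩
    rw [← mk_univ]
    refine (mk_le_mk_of_subset h2).trans ((mk_iUnion_le _).trans (mul_le_mul' le_rfl ?_))
    exact ciSup_le' fun s => mk_frame_le hK hA.1 s
  by_contra h8
  rw [not_le] at h8
  rcases finite_or_infinite X with hX | hX
  · have hfin : Finite (Finset X) := by
      have := Fintype.ofFinite X
      infer_instance
    have h2 : #(Finset X) * ℓ ≤ ℓ :=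
      mul_le_of_le hK.1 ((lt_aleph0_of_finite _).le.trans hK.1) le_rfl
    exact absurd (h1.trans h2) (not_le.2 hM)
  · rw [mk_finset_of_infinite] at h1
    exact absurd h1 (not_le.2 (mul_lt_of_lt (hK.1.trans hM.le) h8 hM))

end frame

section

variable {Λ : Type u}

/-- The Skolem structure: Skolem functions and enumerations. -/
@[reducible] def skStrF {M : Type u} (fn : ∀ n : ℕ, Λ → (Fin n → M) → M)
    (en : ∀ n : ℕ, (Fin n → M) → Λ → M) : (skLang (Λ ⊕ Λ)).Structure M where
  funMap := fun {n} (f : Λ ⊕ Λ) v => match f with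
    | Sum.inl ξ => fn n ξ v
    | Sum.inr ξ => en n v ξ
  RelMap := fun {n} r => PEmpty.elim r

/-- The function symbol of an enumeration. -/
def nu (L : Language.{u, u}) {Λ : Type u} (n : ℕ) (ξ : Λ) : (exLang L (Λ ⊕ Λ)).Functions n :=
  Sum.inr (Sum.inr ξ : Λ ⊕ Λ)

end

theorem exists_locSys {K : AEC L} {ℓ : Cardinal.{u}} (hK : K.IsLS ℓ) {M₀ : Type u}
    [L.Structure M₀] (hM₀ : K.mem M₀) {X : Type u} {A : Finset X → L.Substructure M₀}
    (hA : FrameOf (kle K M₀) ⊤ A) (hbig : hanf (2 ^ ℓ) ≤ #M₀) (hbig2 : ℓ < #M₀) :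
    Nonempty (LocSys K) := by
  classical
  have hℓ := hK.1
  obtain ⟨Λ, hΛ⟩ : ∃ Λ : Type u, #Λ = ℓ := ⟨ℓ.out, mk_out ℓ⟩
  have hne : Nonempty M₀ := by
    rw [← mk_ne_zero_iff]
    exact ((aleph0_pos.trans_le hℓ).trans hbig2).ne'
  -- the elements
  have hp : ∀ x : X, ∃ y ∈ A {x}, y ∉ A ∅ := by
    intro x
    have h3 : ¬ A {x} ≤ A ∅ := fun h => by
      have h4 := hA.1.2.2.1 _ _ h
      exact absurd (h4 (Finset.mem_singleton_self x)) (Finset.notMem_empty x)
    exact SetLike.not_le_iff_exists.1 h3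
  choose p hp1 hp2 using hp
  have hpinj : Injective p := by
    intro x y h
    by_contra hne
    apply hp2 x
    have h1 : A {x} ⊓ A {y} = A ∅ := hA.1.2.1 _ _ _ fun z => by
      simp only [Finset.notMem_empty, Finset.mem_singleton, false_iff]
      rintro ⟨h4, h5⟩
      exact hne (h4.symm.trans h5)
    rw [← h1]
    exact ⟨hp1 x, h ▸ hp1 y⟩
  have hcardA : ∀ s, #(A s) ≤ ℓ := mk_frame_le hK hA.1
  -- the points of a finite set
  have hsf : ∀ F : Set M₀, F.Finite → (p ⁻¹' F).Finite := fun F hF =>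
    hF.preimage hpinj.injOn
  let pts : ∀ n : ℕ, (Fin n → M₀) → Finset X := fun n v =>
    (hsf (range v) (finite_range v)).toFinset
  have hpts : ∀ (n : ℕ) (j : Fin n ↪ X), pts n (fun i => p (j i)) = Finset.univ.map j := by
    intro n j
    ext x
    simp only [pts, Finite.mem_toFinset, mem_preimage, mem_range, Finset.mem_map,
      Finset.mem_univ, true_and]
    constructor
    · rintro ⟨i, hi⟩
      exact ⟨i, hpinj hi⟩
    · rintro ⟨i, rfl⟩
      exact ⟨i, rfl⟩
  -- the hull
  let c₀ : Finset M₀ → Set M₀ := fun F => A (hsf (F : Set M₀) F.finite_toSet).toFinset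
  have hc₀ : ∀ F, #(c₀ F) ≤ ℓ := fun F => hcardA _
  obtain ⟨fn, hfn⟩ := Gr.exists_skolem hK hM₀ c₀ hc₀ hΛ.ge
  have hen : ∀ s : Finset X, ∃ e : Λ → M₀, (A s : Set M₀).Nonempty → range e = (A s : Set M₀) := by
    intro s
    by_cases h0 : (A s : Set M₀).Nonempty
    · have h1 : Nonempty (A s) := h0.to_subtype
      have h2 := hcardA s
      rw [← hΛ] at h2
      obtain ⟨f⟩ := (Cardinal.le_def _ _).1 h2
      refine ⟨fun ξ => (Function.invFun f ξ : A s).1, fun _ => ?_⟩
      ext y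
      constructor
      · rintro ⟨q, rfl⟩
        exact (Function.invFun f q).2
      · intro hy
        refine ⟨f ⟨y, hy⟩, ?_⟩
        simp only [Function.leftInverse_invFun f.injective ⟨y, hy⟩]
    · exact ⟨fun _ => Classical.arbitrary M₀, fun h => absurd h h0⟩
  choose en₀ hen₀ using hen
  let en : ∀ n : ℕ, (Fin n → M₀) → Λ → M₀ := fun n v => en₀ (pts n v)
  let sk : (skLang (Λ ⊕ Λ)).Structure M₀ := skStrF fn en
  have hsk : ∀ S : (exLang L (Λ ⊕ Λ)).Substructure M₀,
      K.le ((exHom L (Λ ⊕ Λ)).substructureReduct S) ∧ ∀ s : Finset X, (∀ x ∈ s, p x ∈ S) →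
        A s ≤ (exHom L (Λ ⊕ Λ)).substructureReduct S := by
    intro S
    obtain ⟨⟨S', h1, h2⟩, h3⟩ := hfn (S : Set M₀) (by
      intro n ξ v hv
      have h4 := S.fun_mem (n := n) (Sum.inr (Sum.inl ξ : Λ ⊕ Λ)) v hv
      exact h4)
    have h5 : S' = (exHom L (Λ ⊕ Λ)).substructureReduct S := SetLike.coe_injective (by
      rw [h2]
      rfl)
    refine ⟨h5 ▸ h1, fun s hs y hy => ?_⟩
    have h6 := h3 (s.image p) (by
      intro z hz
      simp only [Finset.coe_image, mem_image, Finset.mem_coe] at hz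
      obtain ⟨x, hx, rfl⟩ := hz
      exact hs x hx)
    apply h6
    have h7 : (hsf ((s.image p : Finset M₀) : Set M₀) (s.image p).finite_toSet).toFinset = s := by
      ext x
      simp only [Finite.mem_toFinset, mem_preimage, Finset.coe_image, mem_image, Finset.mem_coe]
      constructor
      · rintro ⟨z, hz, hzx⟩
        rwa [← hpinj hzx]
      · intro hx
        exact ⟨x, hx, rfl⟩
    change y ∈ A (hsf ((s.image p : Finset M₀) : Set M₀) (s.image p).finite_toSet).toFinset
    rw [h7]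
    exact hy
  have hΛ2 : #(Λ ⊕ Λ) ≤ ℓ := by
    rw [mk_sum, lift_id, hΛ]
    exact add_le_of_le hℓ le_rfl le_rfl
  have hL : (exLang L (Λ ⊕ Λ)).card ≤ ℓ := card_exLang_le hℓ hK.2.1 hΛ2
  -- the template
  obtain ⟨x⟩ : Nonempty ((#X).ord.ToType ≃ X) := Cardinal.eq.1 (by rw [mk_ord_toType])
  obtain ⟨a', ha1, ha2⟩ := exists_template (L := exLang L (Λ ⊕ Λ)) hℓ hL (fun z => p (x z)) (by
    rw [mk_ord_toType]
    exact hbig.trans (mk_frameOf hK hA hbig2))
  let At : ∀ n : ℕ, Fin n ↪ X := fun n => ⟨fun i => x (a' n i), x.injective.comp (ha1 n).injective⟩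
  let a : ∀ n : ℕ, Fin n → M₀ := fun n i => p (At n i)
  have ha : IsTemplate (exLang L (Λ ⊕ Λ)) a := ha2
  choose N hN c hc htop using fun (I : Type u) (lo : LinearOrder I) =>
    exists_isEM (L := exLang L (Λ ⊕ Λ)) (M := M₀) ha I
  let str : ∀ (I : Type u) (lo : LinearOrder I), L.Structure (N I lo) := fun I lo =>
    (exHom L (Λ ⊕ Λ)).reduct (N I lo)
  have hexp : ∀ (I : Type u) (lo : LinearOrder I),
      (exHom L (Λ ⊕ Λ)).IsExpansionOn (N I lo) :=
    fun I lo => Language.LHom.isExpansionOn_reduct _ _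
  have hem : ∀ (I : Type u) (lo : LinearOrder I) (J : Set I),
      K.le ((exHom L (Λ ⊕ Λ)).substructureReduct
        (Substructure.closure (exLang L (Λ ⊕ Λ)) (c I lo '' J))) :=
    fun I lo J => (em_le (K := K) (exHom L (Λ ⊕ Λ)) (hc I lo) (htop I lo)
      fun S => (hsk S).1).2 J
  have hat : ∀ (I J : Type u) (lo : LinearOrder I) (lo' : LinearOrder J) (f : I ↪o J),
      AtEq (exLang L (Λ ⊕ Λ)) (c I lo) (fun i => c J lo' (f i)) := by
    intro I J lo lo' f
    exact IsEM.pattern (hc I lo) (hc J lo') (fun i => i) (fun i => f i)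
      (fun p q => f.le_iff_le.symm)
  choose g hg using fun (I J : Type u) (lo : LinearOrder I) (lo' : LinearOrder J) (f : I ↪o J) =>
    exists_emb_of_atEq (hat I J lo lo' f) (htop I lo)
  have hterm : ∀ (I : Type u) (lo : LinearOrder I) (y : N I lo),
      ∃ t : (exLang L (Λ ⊕ Λ)).Term I, t.realize (c I lo) = y := fun I lo y =>
    Gr.mem_closure_range.1 (by rw [htop]; trivial)
  have hrange : ∀ (I J : Type u) (lo : LinearOrder I) (lo' : LinearOrder J) (f : I ↪o J),
      (Gr.embReduct (exHom L (Λ ⊕ Λ)) (g I J lo lo' f)).toHom.range =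
        (exHom L (Λ ⊕ Λ)).substructureReduct
          (Substructure.closure (exLang L (Λ ⊕ Λ)) (c J lo' '' range f)) := by
    intro I J lo lo' f
    have h5 : c J lo' '' range f = range (fun i => c J lo' (f i)) := by
      rw [← range_comp]
      rfl
    rw [h5]
    ext y
    constructor
    · rintro ⟨z, rfl⟩
      obtain ⟨t, rfl⟩ := hterm I lo z
      refine Gr.mem_closure_range.2 ⟨t, ?_⟩
      exact (hg I J lo lo' f t).symm
    · intro hy
      obtain ⟨t, rfl⟩ := Gr.mem_closure_range.1 hy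
      exact ⟨t.realize (c I lo), hg I J lo lo' f t⟩
  have hgc : ∀ (I J : Type u) (lo : LinearOrder I) (lo' : LinearOrder J) (f : I ↪o J) (i : I),
      g I J lo lo' f (c I lo i) = c J lo' (f i) := fun I J lo lo' f i =>
    hg I J lo lo' f (Term.var i)
  -- the comparison with the given model
  let Fn : ℕ → Type u := fun n => ULift.{u} (Fin n)
  have hat2 : ∀ n : ℕ, AtEq (exLang L (Λ ⊕ Λ)) (c (Fn n) inferInstance)
      (fun i : Fn n => a n i.down) := by
    intro n
    have h1 := hc (Fn n) inferInstance n (fun i => ULift.up i) (fun i j h => h)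
    exact h1.comp ULift.down
  choose G hG using fun n : ℕ => exists_emb_of_atEq (hat2 n) (htop (Fn n) inferInstance)
  have hGc : ∀ (n : ℕ) (i : Fn n), G n (c (Fn n) inferInstance i) = a n i.down := fun n i =>
    hG n (Term.var i)
  have hnu : ∀ (n : ℕ) (ξ : Λ) (j : Fin n ↪ X),
      funMap (L := exLang L (Λ ⊕ Λ)) (nu L n ξ) (fun i => p (j i)) =
        en₀ (Finset.univ.map j) ξ := by
    intro n ξ j
    change en₀ (pts n fun i => p (j i)) ξ = _
    rw [hpts]
  have hcond : ∀ s : Finset X,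
      (A s : Set M₀).Nonempty ↔ (0 < s.card ∨ (A ∅ : Set M₀).Nonempty) := by
    intro s
    rcases s.eq_empty_or_nonempty with rfl | hs
    · simp
    · obtain ⟨x, hx⟩ := hs
      refine ⟨fun _ => Or.inl (Finset.card_pos.2 ⟨x, hx⟩), fun _ => ⟨p x, ?_⟩⟩
      exact frame_mono hA.1 (Finset.singleton_subset_iff.2 hx) (hp1 x)
  let C : ℕ → Prop := fun m => 0 < m ∨ (A ∅ : Set M₀).Nonempty
  have hmemA : ∀ (m : ℕ) (j : Fin m ↪ X) (y : M₀), y ∈ A (Finset.univ.map j) ↔
      C m ∧ ∃ ξ : Λ, funMap (L := exLang L (Λ ⊕ Λ)) (nu L m ξ) (fun i => p (j i)) = y := by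
    intro m j y
    have h1 := hcond (Finset.univ.map j)
    rw [Finset.card_map, Finset.card_univ, Fintype.card_fin] at h1
    constructor
    · intro hy
      have h2 : (A (Finset.univ.map j) : Set M₀).Nonempty := ⟨y, hy⟩
      refine ⟨h1.1 h2, ?_⟩
      have h3 : y ∈ range (en₀ (Finset.univ.map j)) := by
        rw [hen₀ _ h2]
        exact hy
      obtain ⟨ξ, hξ⟩ := h3
      exact ⟨ξ, (hnu m ξ j).trans hξ⟩
    · rintro ⟨hC, ξ, rfl⟩
      rw [hnu, ← SetLike.mem_coe, ← hen₀ _ (h1.2 hC)]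
      exact ⟨ξ, rfl⟩
  let At' : ∀ n : ℕ, Fn n ↪ X := fun n => ⟨fun i => At n i.down, fun i j h =>
    ULift.ext _ _ ((At n).injective h)⟩
  have hmain : ∀ (n m : ℕ) (e : Fin m ↪ Fn n) (z : N (Fn n) inferInstance),
      G n z ∈ A (Finset.univ.map (e.trans (At' n))) ↔
        C m ∧ ∃ ξ : Λ, funMap (nu L m ξ) (fun i => c (Fn n) inferInstance (e i)) = z := by
    intro n m e z
    rw [hmemA]
    refine and_congr_right fun _ => exists_congr fun ξ => ?_
    have h1 : G n (funMap (nu L m ξ) (fun i => c (Fn n) inferInstance (e i))) =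
        funMap (L := exLang L (Λ ⊕ Λ)) (nu L m ξ) (fun i => p ((e.trans (At' n)) i)) := by
      rw [(G n).map_fun]
      congr 1
      funext i
      exact hGc n (e i)
    rw [← h1]
    exact (G n).injective.eq_iff
  let φ : ∀ n, N (Fn n) inferInstance ↪[L] M₀ := fun n => Gr.embReduct (exHom L (Λ ⊕ Λ)) (G n)
  let gL : ∀ {I J : Type u} [lo : LinearOrder I] [lo' : LinearOrder J] (_ : I ↪o J),
      (N I lo ↪[L] N J lo') := fun {I J lo lo'} f =>
    Gr.embReduct (exHom L (Λ ⊕ Λ)) (g I J lo lo' f)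
  have hφ : ∀ n, K.Emb (φ n) := by
    intro n
    have h1 := (hsk (G n).toHom.range).1
    have h2 : (φ n).toHom.range = (exHom L (Λ ⊕ Λ)).substructureReduct (G n).toHom.range := rfl
    unfold AEC.Emb
    rw [h2]
    exact h1
  let enum : ∀ (I : Type u) [lo : LinearOrder I] (s : Finset I), Fn s.card ↪o I :=
    fun I lo s =>
    { toFun := fun x => s.orderEmbOfFin rfl x.down
      inj' := fun x y h => ULift.ext _ _ ((s.orderEmbOfFin rfl).injective h)
      map_rel_iff' := fun {x y} => (s.orderEmbOfFin rfl).le_iff_le }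
  let U₁ : ∀ m, L.Substructure (N (Fn m) inferInstance) := fun m =>
    (A (Finset.univ.map (At m))).comap (φ m).toHom
  let U : ∀ (I : Type u) [lo : LinearOrder I], Finset I → L.Substructure (N I lo) :=
    fun I lo s => (U₁ s.card).map (gL (enum I s)).toHom
  have hU1 : ∀ (m : ℕ) (z : N (Fn m) inferInstance), z ∈ U₁ m ↔
      C m ∧ ∃ ξ : Λ, funMap (nu L m ξ) (fun i => c (Fn m) inferInstance (ULift.up i)) = z := by
    intro m z
    exact hmain m m ⟨fun i => ULift.up i, fun i j h => congrArg ULift.down h⟩ z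
  have hgnu : ∀ (I J : Type u) (lo : LinearOrder I) (lo' : LinearOrder J) (f : I ↪o J) (m : ℕ)
      (ξ : Λ) (v : Fin m → N I lo), g I J lo lo' f (funMap (nu L m ξ) v) =
        funMap (nu L m ξ) (fun i => g I J lo lo' f (v i)) := fun I J lo lo' f m ξ v =>
    (g I J lo lo' f).map_fun _ _
  have hU : ∀ (I : Type u) (lo : LinearOrder I) (s : Finset I) (m : ℕ) (e : Fin m ↪o I)
      (_ : Finset.univ.map e.toEmbedding = s) (y : N I lo),
      y ∈ U I s ↔ C m ∧ ∃ ξ : Λ, funMap (nu L m ξ) (fun i => c I lo (e i)) = y := by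
    intro I lo s m e he y
    obtain rfl : m = s.card := by
      rw [← he, Finset.card_map, Finset.card_univ, Fintype.card_fin]
    have h1 : e = s.orderEmbOfFin rfl := Finset.orderEmbOfFin_unique' rfl fun x =>
      (Finset.ext_iff.1 he _).1 (Finset.mem_map_of_mem e.toEmbedding (Finset.mem_univ x))
    constructor
    · rintro ⟨z, hz, rfl⟩
      obtain ⟨hC, ξ, hξ⟩ := (hU1 _ z).1 hz
      refine ⟨hC, ξ, ?_⟩
      rw [← hξ]
      change _ = g (Fn s.card) I inferInstance lo (enum I s) _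
      rw [hgnu]
      congr 1
      funext i
      rw [hgc, h1]
      rfl
    · rintro ⟨hC, ξ, rfl⟩
      refine ⟨_, (hU1 _ _).2 ⟨hC, ξ, rfl⟩, ?_⟩
      change g (Fn s.card) I inferInstance lo (enum I s) _ = _
      rw [hgnu]
      congr 1
      funext i
      rw [hgc, h1]
      rfl
  have hcom : ∀ (n : ℕ) (s : Finset (Fn n)) (z : N (Fn n) inferInstance),
      z ∈ U (Fn n) s ↔ G n z ∈ A (s.map (At' n)) := by
    intro n s z
    have h1 := s.map_orderEmbOfFin_univ rfl
    rw [hU (Fn n) inferInstance s s.card (s.orderEmbOfFin rfl) h1]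
    have h2 : Finset.univ.map ((s.orderEmbOfFin rfl).toEmbedding.trans (At' n)) =
        s.map (At' n) := by
      rw [← Finset.map_map, h1]
    rw [← h2]
    exact (hmain n s.card (s.orderEmbOfFin rfl).toEmbedding z).symm
  have hmU : ∀ (n : ℕ) (s : Finset (Fn n)),
      (U (Fn n) s).map (φ n).toHom = A (s.map (At' n)) := by
    intro n s
    have h1 : U (Fn n) s = (A (s.map (At' n))).comap (φ n).toHom := by
      ext z
      exact hcom n s z
    rw [h1]
    refine map_comap (φ n) ?_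
    refine (hsk (G n).toHom.range).2 (s.map (At' n)) fun x hx => ?_
    obtain ⟨k, -, rfl⟩ := Finset.mem_map.1 hx
    exact ⟨c (Fn n) inferInstance k, hGc n k⟩
  have hmapU : ∀ (I J : Type u) (lo : LinearOrder I) (lo' : LinearOrder J) (f : I ↪o J)
      (s : Finset I), (U I s).map (gL f).toHom = U J (s.map f.toEmbedding) := by
    intro I J lo lo' f s
    have h1 := s.map_orderEmbOfFin_univ rfl
    ext y
    rw [hU J lo' _ s.card ((s.orderEmbOfFin rfl).trans f) (by
      conv_rhs => rw [← h1]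
      rw [Finset.map_map]
      rfl)]
    constructor
    · rintro ⟨z, hz, rfl⟩
      obtain ⟨hC, ξ, rfl⟩ := (hU I lo s s.card (s.orderEmbOfFin rfl) h1 z).1 hz
      refine ⟨hC, ξ, ?_⟩
      change _ = g I J lo lo' f _
      rw [hgnu]
      congr 1
      funext i
      exact (hgc _ _ _ _ _ _).symm
    · rintro ⟨hC, ξ, rfl⟩
      refine ⟨_, (hU I lo s s.card (s.orderEmbOfFin rfl) h1 _).2 ⟨hC, ξ, rfl⟩, ?_⟩
      change g I J lo lo' f _ = _
      rw [hgnu]
      congr 1
      funext i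
      exact hgc _ _ _ _ _ _
  refine ⟨{ obj := fun I lo => N I lo, str := fun I lo => str I lo,
            map := fun {I J lo lo'} f => gL f, map_refl := ?_, map_trans := ?_, emb := ?_,
            U := fun I lo => U I, map_U := ?_, frame := ?_ }⟩
  · intro I lo y
    obtain ⟨t, rfl⟩ := hterm I lo y
    exact hg I I lo lo _ t
  · intro I J T lo lo' lo'' i j y
    obtain ⟨t, rfl⟩ := hterm I lo y
    have h5 := hg I T lo lo'' (i.trans j) t
    have h6 := hg I J lo lo' i t
    have h7 := hg J T lo' lo'' j (t.relabel i)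
    rw [Term.realize_relabel, Term.realize_relabel] at h7
    change g I T lo lo'' (i.trans j) _ = g J T lo' lo'' j (g I J lo lo' i _)
    rw [h5, h6]
    exact h7.symm
  · intro I J lo lo' f
    unfold AEC.Emb
    change K.le (Gr.embReduct (exHom L (Λ ⊕ Λ)) (g I J lo lo' f)).toHom.range
    rw [hrange]
    exact hem J lo' _
  · intro I J lo lo' f s
    exact hmapU I J lo lo' f s
  · intro n
    exact frame_of_map (φ n) (hφ n) (frame_map hA.1 (At' n)) (hmU n)

end Vale.Agent.P307.H479.E
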