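import Vale.Agent.P307.H479.E.Fam
import Vale.Agent.P307.H479.E.EMFL

/-! The family of Ehrenfeucht-Mostowski models with free bases, if free sets of large strong
substructures extend to bases. -/

universe u

open FirstOrder Cardinal Set Function Language

namespace Vale.Agent.P307.H479.E

open Ow (le_map le_comap map_comap map_le_range)
open H227 (inc)

variable {L : Language.{u, u}} {K : AEC L}

section

variable {M N : Type u} [L.Structure M] [L.Structure N] {l : Cardinal.{u}}
  {str : L.Substructure M → Prop} {S T : L.Substructure M} {A : Set (L.Substructure M)}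

/-- Free sets of the large substructures extend to bases. -/
def ExtL (str : L.Substructure M → Prop) (l : Cardinal.{u}) : Prop :=
  ∀ S T : L.Substructure M, str S → str T → l ≤ #S → S ≤ T → ∀ A, FreeIn str S A →
    ∃ B, A ⊆ B ∧ BasisOf str T B

theorem ExtL.up (h : ExtL str l) (hS : str S) (hT : str T) (hl : l ≤ #S) (hST : S ≤ T)
    (hA : FreeIn str S A) : FreeIn str T A := by
  obtain ⟨B, h1, h2⟩ := h S T hS hT hl hST A hA
  exact h2.1.mono h1

theorem mk_map (φ : M ↪[L] N) (S : L.Substructure M) : #(S.map φ.toHom) = #S := by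
  refine (mk_congr (Equiv.ofBijective (fun x : S => (⟨φ x, x, x.2, rfl⟩ : S.map φ.toHom))
    ⟨fun x y h => ?_, ?_⟩)).symm
  · exact Subtype.ext (φ.injective (congrArg Subtype.val h))
  · rintro ⟨_, x, hx, rfl⟩
    exact ⟨⟨x, hx⟩, rfl⟩

theorem ExtL.of_emb (φ : M ↪[L] N) (hφ : K.Emb φ) (h : ExtL (kle K N) l) :
    ExtL (kle K M) l := by
  intro S T hS hT hl hST A hA
  obtain ⟨B, h1, h2⟩ := h (S.map φ.toHom) (T.map φ.toHom) (le_map φ hφ hS) (le_map φ hφ hT)
    (hl.trans (mk_map φ S).ge) ((map_le_iff φ).2 hST) _ ((free_map_iff φ hφ).2 hA)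
  have h3 : (fun X : L.Substructure M => X.map φ.toHom) '' {X | X.map φ.toHom ∈ B} = B := by
    ext Y
    constructor
    · rintro ⟨X, hX, rfl⟩
      exact hX
    · intro hY
      have h4 : Y ≤ φ.toHom.range := (h2.1.1 Y hY).2.trans (map_le_range φ T)
      refine ⟨Y.comap φ.toHom, ?_, map_comap φ h4⟩
      change (Y.comap φ.toHom).map φ.toHom ∈ B
      rwa [map_comap φ h4]
  refine ⟨{X | X.map φ.toHom ∈ B}, fun X hX => h1 ⟨X, hX, rfl⟩, ?_⟩
  rw [← basis_map_iff φ hφ, h3]
  exact h2

end

namespace LocFam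

variable (P : LocFam K) {I J : Type u} [LinearOrder I] [LinearOrder J] {l : Cardinal.{u}}

theorem extL_obj (hgood : ∀ χ : Cardinal.{u}, ∃ κ, χ ≤ κ ∧ K.CategoricalIn κ ∧
      ∃ (M : Type u) (_ : L.Structure M), K.mem M ∧ #M = κ ∧ ExtL (kle K M) l)
    (I : Type u) [LinearOrder I] : ExtL (kle K (P.obj I)) l := by
  classical
  have hK : K.IsLS K.LS := AEC.isLS_LS K
  obtain ⟨κ, hκ, hcκ, M, _, hM1, hM2, hM3⟩ := hgood (max K.LS #(P.obj I))
  have hκ0 : ℵ₀ ≤ κ := hK.1.trans ((le_max_left _ _).trans hκ)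
  let J : Type u := κ.ord.ToType
  let T : Type u := I ⊕ₗ J
  let iI : I ↪o T := H227.lft
  let iJ : J ↪o T := H227.rgt
  have hJκ : κ ≤ #(P.obj J) := by
    have h1 : #J = κ := mk_ord_toType κ
    exact h1.symm.le.trans (mk_le_of_injective P.c_injective)
  have hT : κ ≤ #(P.obj T) := hJκ.trans (mk_le_of_injective (P.map iJ).injective)
  obtain ⟨A, hA⟩ := le_mk_iff_exists_set.1 hT
  obtain ⟨S, hS1, hS2, hS3⟩ := hK.2.2 (P.obj T) (P.mem_obj T) (A ∪ range (P.map iI))
  have hSκ : #S = κ := by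
    apply le_antisymm
    · refine hS3.trans (add_le_of_le hκ0 ?_ ((le_max_left _ _).trans hκ))
      refine (mk_union_le _ _).trans (add_le_of_le hκ0 hA.le (mk_range_le.trans ?_))
      exact (le_max_right _ _).trans hκ
    · exact hA.symm.le.trans (mk_le_mk_of_subset (subset_union_left.trans hS2))
  obtain ⟨e⟩ := hcκ.2 S M (K.mem_of_le _ hS1).1 hM1 hSκ hM2
  have hB : ExtL (kle K S) l :=
    ExtL.of_emb e.toEmbedding (AEC.Emb.of_equiv e (K.mem_of_le _ hS1).1) hM3
  let ψ : P.obj I ↪[L] S := Embedding.codRestrict S (P.map iI) fun x =>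
    hS2 (Or.inr ⟨x, rfl⟩)
  have hψ : K.Emb ψ := by
    refine AEC.Emb.of_comp (g := S.subtype) (AEC.emb_subtype.2 hS1) ?_
    have h1 : S.subtype.comp ψ = P.map iI := by
      apply Language.Embedding.ext
      intro x
      rfl
    rw [h1]
    exact P.emb iI
  exact ExtL.of_emb ψ hψ hB

variable {P}

theorem free_finsetL (hP : ∀ (I : Type u) [LinearOrder I], l ≤ #(P.obj I))
    (hE : ExtL (kle K (P.obj I)) l) (s : Finset I) :
    FreeIn (kle K (P.obj I)) ⊤ (P.U I '' (s : Set I)) := by
  obtain ⟨n, e, he⟩ := exists_enum s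
  have h1 := (free_map_iff (P.map e) (P.emb e)).2 (P.loc n)
  rw [← image_univ, P.image_U, image_univ, he] at h1
  refine hE.up (le_map _ (P.emb e) (K.le_refl (P.mem_obj _))) (K.le_refl (P.mem_obj _)) ?_ le_top
    h1
  rw [mk_map]
  refine (hP (ULift.{u} (Fin n))).trans (mk_le_of_injective
    (f := fun x => (⟨x, trivial⟩ : (⊤ : L.Substructure (P.obj (ULift.{u} (Fin n)))))) ?_)
  intro x y hxy
  exact congrArg Subtype.val hxy

theorem sep_finsetL (hP : ∀ (I : Type u) [LinearOrder I], l ≤ #(P.obj I))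
    (hE : ExtL (kle K (P.obj I)) l) (s : Finset I) (i : I) (hi : i ∉ s)
    (V : L.Substructure (P.obj I)) (hV : Lst (kle K (P.obj I)) ⊤ (P.U I '' (s : Set I)) V) :
    P.c I i ∉ V := by
  classical
  obtain ⟨n, e, he⟩ := exists_enum (insert i s)
  obtain ⟨k, rfl⟩ : i ∈ range e := by rw [he]; simp
  have h1 : e '' (e ⁻¹' (s : Set I)) = (s : Set I) := by
    rw [image_preimage_eq_inter_range, he]
    ext y
    simp
    tauto
  obtain ⟨W, hW, -⟩ := (P.loc n).2.2 (P.U _ '' (e ⁻¹' (s : Set I))) (image_subset_range _ _)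
  have h2 := (lst_map_iff (P.map e) (P.emb e)).2 hW
  rw [P.image_U, h1] at h2
  have h3 : Lst (kle K (P.obj I)) ⊤ (P.U I '' (s : Set I)) (W.map (P.map e).toHom) :=
    h2.up (free_finsetL hP hE s) subset_rfl
      (le_map _ (P.emb e) (K.le_refl (P.mem_obj _))) le_top
  rw [hV.unique h3, ← P.map_c]
  rintro ⟨y, hy, hy2⟩
  have h4 : y = P.c _ k := (P.map e).injective hy2
  rw [h4] at hy
  exact P.sep n k _ hi W hW hy

theorem U_injectiveL (hP : ∀ (I : Type u) [LinearOrder I], l ≤ #(P.obj I))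
    (hE : ExtL (kle K (P.obj I)) l) : Injective (P.U I) := by
  classical
  intro i j hij
  by_contra hne
  obtain ⟨V, hV, -⟩ := (free_finsetL hP hE {j}).2.2 _ subset_rfl
  apply sep_finsetL hP hE {j} i (by simpa using hne) V hV
  have h1 : P.U I j ≤ V := hV.2.2.1 _ ⟨j, by simp, rfl⟩
  rw [← hij] at h1
  exact h1 (P.c_mem I i)

theorem free_rangeL (hP : ∀ (I : Type u) [LinearOrder I], l ≤ #(P.obj I))
    (hE : ExtL (kle K (P.obj I)) l) :
    FreeIn (kle K (P.obj I)) ⊤ (range (P.U I)) ∧
      ∀ B ⊆ range (P.U I), ∀ U, Lst (kle K (P.obj I)) ⊤ B U → ∀ x ∈ U,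
        ∃ F : Finset (L.Substructure (P.obj I)), (F : Set (L.Substructure (P.obj I))) ⊆ B ∧
          ∀ V, Lst (kle K (P.obj I)) ⊤ (F : Set (L.Substructure (P.obj I))) V → x ∈ V := by
  apply free_of_fin
  · intro F hF
    obtain ⟨s, hs⟩ := exists_finset F hF
    rw [← hs]
    exact free_finsetL hP hE s
  · rintro _ ⟨i, rfl⟩
    refine ⟨P.c I i, P.c_mem I i, fun F hF hiF U hU => ?_⟩
    obtain ⟨s, hs⟩ := exists_finset F hF
    rw [← hs] at hU
    refine sep_finsetL hP hE s i (fun hi => hiF ?_) U hU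
    rw [← Finset.mem_coe, ← hs]
    exact ⟨i, hi, rfl⟩

end LocFam

/-- The family of models with free bases. -/
theorem exists_fam_of_extL {L : Language.{u, u}} (K : AEC L) (l : Cardinal.{u})
    (hgood : ∀ χ : Cardinal.{u}, ∃ κ, χ ≤ κ ∧ K.CategoricalIn κ ∧
      ∃ (M : Type u) (_ : L.Structure M), K.mem M ∧ #M = κ ∧ ExtL (kle K M) l) (P : LocFam K)
    (hP : ∀ (I : Type u) [LinearOrder I], l ≤ #(P.obj I)) :
    ∃ F : Pw.Fam K, ∀ (I : Type u) [LinearOrder I],
      BasisOf (fun S => K.le S) ⊤ (range fun i : I => F.sub {i}) := by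
  classical
  have hE : ∀ (I : Type u) [LinearOrder I], ExtL (kle K (P.obj I)) l := fun I _ =>
    P.extL_obj hgood I
  have hsp : ∀ (I : Type u) (lo : LinearOrder I) (A : Set I),
      ∃ V, Lst (kle K (P.obj I)) ⊤ (P.U I '' A) V := fun I lo A => by
    obtain ⟨V, hV, -⟩ := (LocFam.free_rangeL hP (hE I)).1.2.2 _ (image_subset_range (P.U I) A)
    exact ⟨V, hV⟩
  choose sp hsp using hsp
  have hmono : ∀ (I : Type u) [lo : LinearOrder I] (A B : Set I), A ⊆ B →
      sp I lo A ≤ sp I lo B := fun I lo A B hAB =>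
    (hsp I lo A).2.2.2 _ (hsp I lo B).1 le_top fun X hX =>
      (hsp I lo B).2.2.1 X (image_mono hAB hX)
  have hmap : ∀ {I J : Type u} [lo : LinearOrder I] [lo' : LinearOrder J] (i : I ↪o J) (A : Set I),
      (sp I lo A).map (P.map i).toHom = sp J lo' (i '' A) := by
    intro I J lo lo' i A
    have h1 := (lst_map_iff (P.map i) (P.emb i)).2 (hsp I lo A)
    rw [P.image_U] at h1
    have h2 := h1.up (LocFam.free_rangeL hP (hE J)).1 (image_subset_range (P.U J) (i '' A))
      (le_map _ (P.emb i) (K.le_refl (P.mem_obj _))) le_top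
    exact h2.unique (hsp J lo' (i '' A))
  let T : ∀ (I : Type u) [LinearOrder I], L.Substructure (P.obj I) := fun I lo => sp I lo univ
  have hT : ∀ (I : Type u) [LinearOrder I], K.le (T I) := fun I lo => (hsp I lo univ).1
  have himg : ∀ {I J : Type u} [lo : LinearOrder I] [lo' : LinearOrder J] (i : I ↪o J),
      (T I).map (P.map i).toHom = sp J lo' (range i) := by
    intro I J lo lo' i
    have h1 := hmap i univ
    rw [image_univ] at h1
    exact h1
  have hmaps : ∀ {I J : Type u} [LinearOrder I] [LinearOrder J] (i : I ↪o J) (a : T I),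
      P.map i a.1 ∈ T J := by
    intro I J _ _ i a
    have h1 : P.map i a.1 ∈ (T I).map (P.map i).toHom := ⟨a.1, a.2, rfl⟩
    rw [himg] at h1
    exact hmono J _ _ (subset_univ _) h1
  let m : ∀ {I J : Type u} [LinearOrder I] [LinearOrder J] (_ : I ↪o J), (T I ↪[L] T J) :=
    fun {I J} _ _ i => Embedding.codRestrict (T J) ((P.map i).comp (T I).subtype) (hmaps i)
  have hrange : ∀ (I : Type u) [lo : LinearOrder I] (A : Set I),
      (m (OrderEmbedding.subtype (· ∈ A))).toHom.range.map (T I).subtype.toHom =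
        sp I lo A := by
    intro I _ A
    have h1 := himg (OrderEmbedding.subtype (· ∈ A))
    have h2 : range (OrderEmbedding.subtype (· ∈ A)) = A := Subtype.range_coe
    rw [h2] at h1
    rw [← h1]
    ext y
    constructor
    · rintro ⟨_, ⟨z, rfl⟩, rfl⟩
      exact ⟨z.1, z.2, rfl⟩
    · rintro ⟨z, hz, rfl⟩
      exact ⟨_, ⟨⟨z, hz⟩, rfl⟩, rfl⟩
  have hEmb : ∀ (I : Type u) [LinearOrder I], K.Emb (T I).subtype := fun I _ =>
    AEC.emb_subtype.2 (hT I)
  have hsing : ∀ (I : Type u) [lo : LinearOrder I] (i : I), sp I lo {i} = P.U I i := by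
    intro I lo i
    have h1 := hsp I lo {i}
    rw [image_singleton] at h1
    refine h1.unique ⟨((LocFam.free_rangeL hP (hE I)).1.1 _ ⟨i, rfl⟩).1, le_top, ?_, ?_⟩
    · rintro X rfl
      exact le_rfl
    · intro V _ _ hV
      exact hV _ rfl
  let F : Pw.Fam K :=
    { obj := fun I _ => T I, str := fun I _ => inferInstance, map := fun i => m i,
      map_refl := fun a => Subtype.ext (P.map_refl _),
      map_trans := fun i j a => Subtype.ext (P.map_trans _ _ _),
      emb_map := by
        intro I J _ _ i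
        refine AEC.Emb.of_comp (hEmb J) ?_
        have h1 : (T J).subtype.comp (m i) = (P.map i).comp (T I).subtype := by
          apply Language.Embedding.ext
          intro x
          rfl
        rw [h1]
        exact AEC.Emb.comp (P.emb i) (hEmb I)
      mono := by
        intro I lo A B hAB a ha
        have h1 : sp I lo A ≤ sp I lo B := by
          rw [← hrange I A, ← hrange I B]
          exact (map_le_iff (T I).subtype).2 hAB
        have h2 : P.U I a ≤ sp I lo B := ((hsp I lo A).2.2.1 _ ⟨a, ha, rfl⟩).trans h1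
        obtain ⟨V, hV, hV2⟩ := (LocFam.free_rangeL hP (hE I)).1.2.2 _ (image_subset_range (P.U I) B)
        rw [(hsp I lo B).unique hV] at h2
        obtain ⟨b, hb, hba⟩ := hV2 _ ⟨a, rfl⟩ h2
        rwa [← LocFam.U_injectiveL hP (hE I) hba]
      fin := by
        intro I lo a
        obtain ⟨F, hF, hF2⟩ := (LocFam.free_rangeL hP (hE I)).2 _
          (image_subset_range (P.U I) univ) _ (hsp I lo univ) a.1 a.2
        obtain ⟨s, hs⟩ := LocFam.exists_finset F (hF.trans (image_subset_range (P.U I) univ))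
        refine ⟨(s : Set I), s.finite_toSet, ?_⟩
        have h1 := hF2 (sp I lo s) (hs ▸ hsp I lo s)
        rw [← hrange] at h1
        obtain ⟨y, hy, hya⟩ := h1
        have : y = a := Subtype.ext hya
        rw [← this]
        exact hy }
  refine ⟨F, fun I lo => ?_⟩
  have h1 : (fun X : L.Substructure (T I) => X.map (T I).subtype.toHom) ''
      (range fun i : I => F.sub {i}) = range (P.U I) := by
    rw [← range_comp]
    congr 1
    funext i
    exact (hrange I {i}).trans (hsing I i)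
  have h2 : (⊤ : L.Substructure (T I)).map (T I).subtype.toHom = T I := by
    ext y
    constructor
    · rintro ⟨z, -, rfl⟩
      exact z.2
    · intro hy
      exact ⟨⟨y, hy⟩, trivial, rfl⟩
  have h3 := hsp I lo univ
  rw [image_univ] at h3
  have h4 : BasisOf (kle K (P.obj I)) (T I) (range (P.U I)) :=
    ⟨(LocFam.free_rangeL hP (hE I)).1.down (hT I) le_top h3.2.2.1,
      h3.down (hT I) le_top h3.2.2.1⟩
  have h5 : BasisOf (kle K (P.obj I)) ((⊤ : L.Substructure (T I)).map (T I).subtype.toHom)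
      ((fun X : L.Substructure (T I) => X.map (T I).subtype.toHom) ''
        (range fun i : I => F.sub {i})) := by
    rw [h1, h2]
    exact h4
  exact (basis_map_iff (T I).subtype (hEmb I)).1 h5

end Vale.Agent.P307.H479.E
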