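import Vale.Agent.P307.H479.E.EMF
import Vale.Agent.P307.H227.Inj
import Vale.Agent.P307.Pw.Aut

/-! The family of Ehrenfeucht-Mostowski models with free bases. -/

universe u

open FirstOrder Cardinal Set Function Language

namespace Vale.Agent.P307.H479.E

open Ow (le_map le_comap map_comap map_le_range)
open H227 (inc)

variable {L : Language.{u, u}} {K : AEC L}

namespace LocFam

variable (P : LocFam K) {I J : Type u} [LinearOrder I] [LinearOrder J]

theorem mem_obj (I : Type u) [LinearOrder I] : K.mem (P.obj I) :=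
  (P.emb (RelEmbedding.refl (· ≤ ·) : I ↪o I)).mem_left

theorem exists_enum (s : Finset I) :
    ∃ (n : ℕ) (e : ULift.{u} (Fin n) ↪o I), range e = (s : Set I) := by
  refine ⟨s.card, { toFun := fun x => s.orderEmbOfFin rfl x.down, inj' := ?_,
                    map_rel_iff' := ?_ }, ?_⟩
  · intro x y h
    exact ULift.ext _ _ ((s.orderEmbOfFin rfl).injective h)
  · intro x y
    exact (s.orderEmbOfFin rfl).le_iff_le
  · ext y
    rw [← Finset.range_orderEmbOfFin s rfl]
    constructor
    · rintro ⟨x, rfl⟩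
      exact ⟨x.down, rfl⟩
    · rintro ⟨x, rfl⟩
      exact ⟨⟨x⟩, rfl⟩

theorem image_U (e : I ↪o J) (B : Set I) :
    (fun X : L.Substructure (P.obj I) => X.map (P.map e).toHom) '' (P.U I '' B) =
      P.U J '' (e '' B) := by
  rw [image_image, image_image]
  exact image_congr fun k _ => P.map_U e k

theorem c_injective : Injective (P.c I) := by
  classical
  intro i j hij
  by_contra hne
  obtain ⟨n, e, he⟩ := exists_enum ({i, j} : Finset I)
  obtain ⟨k, rfl⟩ : i ∈ range e := by rw [he]; simp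
  obtain ⟨k', rfl⟩ : j ∈ range e := by rw [he]; simp
  have hk : k ∉ ({k'} : Set (ULift.{u} (Fin n))) := fun h => hne (congrArg e h)
  rw [← P.map_c, ← P.map_c] at hij
  have h1 := (P.map e).injective hij
  obtain ⟨V, hV, -⟩ := (P.loc n).2.2 (P.U _ '' {k'}) (image_subset_range _ _)
  apply P.sep n k {k'} hk V hV
  rw [h1]
  exact hV.2.2.1 _ ⟨k', rfl, rfl⟩ (P.c_mem _ k')

theorem ext_obj (hgood : ∀ χ : Cardinal.{u}, ∃ κ, χ ≤ κ ∧ K.CategoricalIn κ ∧
      ∃ (M : Type u) (_ : L.Structure M), K.mem M ∧ #M = κ ∧ IsFree K M)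
    (I : Type u) [LinearOrder I] : Ext (kle K (P.obj I)) := by
  classical
  have hK : K.IsLS K.LS := AEC.isLS_LS K
  obtain ⟨κ, hκ, hcκ, M, _, hM1, hM2, hM3⟩ := hgood (max K.LS #(P.obj I))
  have hκ0 : ℵ₀ ≤ κ := hK.1.trans ((le_max_left _ _).trans hκ)
  let J : Type u := κ.ord.ToType
  let T : Type u := I ⊕ₗ J
  let iI : I ↪o T := H227.lft
  let iJ : J ↪o T := H227.rgt
  have hJκ : κ ≤ #(P.obj J) := by
    have h1 : #J = κ := mk_ord_toType κ
    exact h1.symm.le.trans (mk_le_of_injective P.c_injective)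
  have hT : κ ≤ #(P.obj T) := hJκ.trans (mk_le_of_injective (P.map iJ).injective)
  obtain ⟨A, hA⟩ := le_mk_iff_exists_set.1 hT
  obtain ⟨S, hS1, hS2, hS3⟩ := hK.2.2 (P.obj T) (P.mem_obj T) (A ∪ range (P.map iI))
  have hSκ : #S = κ := by
    apply le_antisymm
    · refine hS3.trans (add_le_of_le hκ0 ?_ ((le_max_left _ _).trans hκ))
      refine (mk_union_le _ _).trans (add_le_of_le hκ0 hA.le (mk_range_le.trans ?_))
      exact (le_max_right _ _).trans hκ
    · exact hA.symm.le.trans (mk_le_mk_of_subset (subset_union_left.trans hS2))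
  obtain ⟨e⟩ := hcκ.2 S M (K.mem_of_le _ hS1).1 hM1 hSκ hM2
  have hB : Ext (kle K S) :=
    Ext.of_emb e.toEmbedding (AEC.Emb.of_equiv e (K.mem_of_le _ hS1).1) hM3.ext
  let ψ : P.obj I ↪[L] S := Embedding.codRestrict S (P.map iI) fun x =>
    hS2 (Or.inr ⟨x, rfl⟩)
  have hψ : K.Emb ψ := by
    refine AEC.Emb.of_comp (g := S.subtype) (AEC.emb_subtype.2 hS1) ?_
    have h1 : S.subtype.comp ψ = P.map iI := by
      apply Language.Embedding.ext
      intro x
      rfl
    rw [h1]
    exact P.emb iI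
  exact Ext.of_emb ψ hψ hB

variable {P}

theorem free_finset (hE : Ext (kle K (P.obj I))) (s : Finset I) :
    FreeIn (kle K (P.obj I)) ⊤ (P.U I '' (s : Set I)) := by
  obtain ⟨n, e, he⟩ := exists_enum s
  have h1 := (free_map_iff (P.map e) (P.emb e)).2 (P.loc n)
  rw [← image_univ, P.image_U, image_univ, he] at h1
  exact hE.up (le_map _ (P.emb e) (K.le_refl (P.mem_obj _))) (K.le_refl (P.mem_obj _)) le_top h1

theorem sep_finset (hE : Ext (kle K (P.obj I))) (s : Finset I) (i : I) (hi : i ∉ s)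
    (V : L.Substructure (P.obj I)) (hV : Lst (kle K (P.obj I)) ⊤ (P.U I '' (s : Set I)) V) :
    P.c I i ∉ V := by
  classical
  obtain ⟨n, e, he⟩ := exists_enum (insert i s)
  obtain ⟨k, rfl⟩ : i ∈ range e := by rw [he]; simp
  have h1 : e '' (e ⁻¹' (s : Set I)) = (s : Set I) := by
    rw [image_preimage_eq_inter_range, he]
    ext y
    simp
    tauto
  obtain ⟨W, hW, -⟩ := (P.loc n).2.2 (P.U _ '' (e ⁻¹' (s : Set I))) (image_subset_range _ _)
  have h2 := (lst_map_iff (P.map e) (P.emb e)).2 hW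
  rw [P.image_U, h1] at h2
  have h3 : Lst (kle K (P.obj I)) ⊤ (P.U I '' (s : Set I)) (W.map (P.map e).toHom) :=
    h2.up (free_finset hE s) subset_rfl
      (le_map _ (P.emb e) (K.le_refl (P.mem_obj _))) le_top
  rw [hV.unique h3, ← P.map_c]
  rintro ⟨y, hy, hy2⟩
  have h4 : y = P.c _ k := (P.map e).injective hy2
  rw [h4] at hy
  exact P.sep n k _ hi W hW hy

theorem U_injective (hE : Ext (kle K (P.obj I))) : Injective (P.U I) := by
  classical
  intro i j hij
  by_contra hne
  obtain ⟨V, hV, -⟩ := (free_finset hE {j}).2.2 _ subset_rfl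
  apply sep_finset hE {j} i (by simpa using hne) V hV
  have h1 : P.U I j ≤ V := hV.2.2.1 _ ⟨j, by simp, rfl⟩
  rw [← hij] at h1
  exact h1 (P.c_mem I i)

theorem exists_finset (F : Finset (L.Substructure (P.obj I)))
    (hF : (F : Set (L.Substructure (P.obj I))) ⊆ range (P.U I)) :
    ∃ s : Finset I, P.U I '' (s : Set I) = (F : Set (L.Substructure (P.obj I))) := by
  classical
  choose i hi using fun X : {x // x ∈ F} => hF (Finset.mem_coe.2 X.2)
  refine ⟨F.attach.image i, ?_⟩
  ext X
  constructor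
  · rintro ⟨j, hj, rfl⟩
    simp only [Finset.coe_image, mem_image, Finset.mem_coe, Finset.mem_attach, true_and] at hj
    obtain ⟨Y, rfl⟩ := hj
    rw [hi]
    exact Finset.mem_coe.2 Y.2
  · intro hX
    refine ⟨i ⟨X, Finset.mem_coe.1 hX⟩, ?_, hi _⟩
    simp only [Finset.coe_image, mem_image, Finset.mem_coe, Finset.mem_attach, true_and]
    exact ⟨_, rfl⟩

theorem free_range (hE : Ext (kle K (P.obj I))) :
    FreeIn (kle K (P.obj I)) ⊤ (range (P.U I)) ∧
      ∀ B ⊆ range (P.U I), ∀ U, Lst (kle K (P.obj I)) ⊤ B U → ∀ x ∈ U,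
        ∃ F : Finset (L.Substructure (P.obj I)), (F : Set (L.Substructure (P.obj I))) ⊆ B ∧
          ∀ V, Lst (kle K (P.obj I)) ⊤ (F : Set (L.Substructure (P.obj I))) V → x ∈ V := by
  apply free_of_fin
  · intro F hF
    obtain ⟨s, hs⟩ := exists_finset F hF
    rw [← hs]
    exact free_finset hE s
  · rintro _ ⟨i, rfl⟩
    refine ⟨P.c I i, P.c_mem I i, fun F hF hiF U hU => ?_⟩
    obtain ⟨s, hs⟩ := exists_finset F hF
    rw [← hs] at hU
    refine sep_finset hE s i (fun hi => hiF ?_) U hU
    rw [← Finset.mem_coe, ← hs]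
    exact ⟨i, hi, rfl⟩

end LocFam

/-- The family of models with free bases. -/
theorem exists_fam_of_free {L : Language.{u, u}} (K : AEC L)
    (hgood : ∀ χ : Cardinal.{u}, ∃ κ, χ ≤ κ ∧ K.CategoricalIn κ ∧
      ∃ (M : Type u) (_ : L.Structure M), K.mem M ∧ #M = κ ∧ IsFree K M) (P : LocFam K) :
    ∃ F : Pw.Fam K, ∀ (I : Type u) [LinearOrder I],
      BasisOf (fun S => K.le S) ⊤ (range fun i : I => F.sub {i}) := by
  classical
  have hE : ∀ (I : Type u) [LinearOrder I], Ext (kle K (P.obj I)) := fun I _ =>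
    P.ext_obj hgood I
  have hsp : ∀ (I : Type u) (lo : LinearOrder I) (A : Set I),
      ∃ V, Lst (kle K (P.obj I)) ⊤ (P.U I '' A) V := fun I lo A => by
    obtain ⟨V, hV, -⟩ := (LocFam.free_range (hE I)).1.2.2 _ (image_subset_range (P.U I) A)
    exact ⟨V, hV⟩
  choose sp hsp using hsp
  have hmono : ∀ (I : Type u) [lo : LinearOrder I] (A B : Set I), A ⊆ B →
      sp I lo A ≤ sp I lo B := fun I lo A B hAB =>
    (hsp I lo A).2.2.2 _ (hsp I lo B).1 le_top fun X hX =>
      (hsp I lo B).2.2.1 X (image_mono hAB hX)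
  have hmap : ∀ {I J : Type u} [lo : LinearOrder I] [lo' : LinearOrder J] (i : I ↪o J) (A : Set I),
      (sp I lo A).map (P.map i).toHom = sp J lo' (i '' A) := by
    intro I J lo lo' i A
    have h1 := (lst_map_iff (P.map i) (P.emb i)).2 (hsp I lo A)
    rw [P.image_U] at h1
    have h2 := h1.up (LocFam.free_range (hE J)).1 (image_subset_range (P.U J) (i '' A))
      (le_map _ (P.emb i) (K.le_refl (P.mem_obj _))) le_top
    exact h2.unique (hsp J lo' (i '' A))
  let T : ∀ (I : Type u) [LinearOrder I], L.Substructure (P.obj I) := fun I lo => sp I lo univ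
  have hT : ∀ (I : Type u) [LinearOrder I], K.le (T I) := fun I lo => (hsp I lo univ).1
  have himg : ∀ {I J : Type u} [lo : LinearOrder I] [lo' : LinearOrder J] (i : I ↪o J),
      (T I).map (P.map i).toHom = sp J lo' (range i) := by
    intro I J lo lo' i
    have h1 := hmap i univ
    rw [image_univ] at h1
    exact h1
  have hmaps : ∀ {I J : Type u} [LinearOrder I] [LinearOrder J] (i : I ↪o J) (a : T I),
      P.map i a.1 ∈ T J := by
    intro I J _ _ i a
    have h1 : P.map i a.1 ∈ (T I).map (P.map i).toHom := ⟨a.1, a.2, rfl⟩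
    rw [himg] at h1
    exact hmono J _ _ (subset_univ _) h1
  let m : ∀ {I J : Type u} [LinearOrder I] [LinearOrder J] (_ : I ↪o J), (T I ↪[L] T J) :=
    fun {I J} _ _ i => Embedding.codRestrict (T J) ((P.map i).comp (T I).subtype) (hmaps i)
  have hrange : ∀ (I : Type u) [lo : LinearOrder I] (A : Set I),
      (m (OrderEmbedding.subtype (· ∈ A))).toHom.range.map (T I).subtype.toHom =
        sp I lo A := by
    intro I _ A
    have h1 := himg (OrderEmbedding.subtype (· ∈ A))
    have h2 : range (OrderEmbedding.subtype (· ∈ A)) = A := Subtype.range_coe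
    rw [h2] at h1
    rw [← h1]
    ext y
    constructor
    · rintro ⟨_, ⟨z, rfl⟩, rfl⟩
      exact ⟨z.1, z.2, rfl⟩
    · rintro ⟨z, hz, rfl⟩
      exact ⟨_, ⟨⟨z, hz⟩, rfl⟩, rfl⟩
  have hEmb : ∀ (I : Type u) [LinearOrder I], K.Emb (T I).subtype := fun I _ =>
    AEC.emb_subtype.2 (hT I)
  have hsing : ∀ (I : Type u) [lo : LinearOrder I] (i : I), sp I lo {i} = P.U I i := by
    intro I lo i
    have h1 := hsp I lo {i}
    rw [image_singleton] at h1
    refine h1.unique ⟨((LocFam.free_range (hE I)).1.1 _ ⟨i, rfl⟩).1, le_top, ?_, ?_⟩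
    · rintro X rfl
      exact le_rfl
    · intro V _ _ hV
      exact hV _ rfl
  let F : Pw.Fam K :=
    { obj := fun I _ => T I, str := fun I _ => inferInstance, map := fun i => m i,
      map_refl := fun a => Subtype.ext (P.map_refl _),
      map_trans := fun i j a => Subtype.ext (P.map_trans _ _ _),
      emb_map := by
        intro I J _ _ i
        refine AEC.Emb.of_comp (hEmb J) ?_
        have h1 : (T J).subtype.comp (m i) = (P.map i).comp (T I).subtype := by
          apply Language.Embedding.ext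
          intro x
          rfl
        rw [h1]
        exact AEC.Emb.comp (P.emb i) (hEmb I)
      mono := by
        intro I lo A B hAB a ha
        have h1 : sp I lo A ≤ sp I lo B := by
          rw [← hrange I A, ← hrange I B]
          exact (map_le_iff (T I).subtype).2 hAB
        have h2 : P.U I a ≤ sp I lo B := ((hsp I lo A).2.2.1 _ ⟨a, ha, rfl⟩).trans h1
        obtain ⟨V, hV, hV2⟩ := (LocFam.free_range (hE I)).1.2.2 _ (image_subset_range (P.U I) B)
        rw [(hsp I lo B).unique hV] at h2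
        obtain ⟨b, hb, hba⟩ := hV2 _ ⟨a, rfl⟩ h2
        rwa [← LocFam.U_injective (hE I) hba]
      fin := by
        intro I lo a
        obtain ⟨F, hF, hF2⟩ := (LocFam.free_range (hE I)).2 _
          (image_subset_range (P.U I) univ) _ (hsp I lo univ) a.1 a.2
        obtain ⟨s, hs⟩ := LocFam.exists_finset F (hF.trans (image_subset_range (P.U I) univ))
        refine ⟨(s : Set I), s.finite_toSet, ?_⟩
        have h1 := hF2 (sp I lo s) (hs ▸ hsp I lo s)
        rw [← hrange] at h1
        obtain ⟨y, hy, hya⟩ := h1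
        have : y = a := Subtype.ext hya
        rw [← this]
        exact hy }
  refine ⟨F, fun I lo => ?_⟩
  have h1 : (fun X : L.Substructure (T I) => X.map (T I).subtype.toHom) ''
      (range fun i : I => F.sub {i}) = range (P.U I) := by
    rw [← range_comp]
    congr 1
    funext i
    exact (hrange I {i}).trans (hsing I i)
  have h2 : (⊤ : L.Substructure (T I)).map (T I).subtype.toHom = T I := by
    ext y
    constructor
    · rintro ⟨z, -, rfl⟩
      exact z.2
    · intro hy
      exact ⟨⟨y, hy⟩, trivial, rfl⟩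
  have h3 := hsp I lo univ
  rw [image_univ] at h3
  have h4 : BasisOf (kle K (P.obj I)) (T I) (range (P.U I)) :=
    ⟨(LocFam.free_range (hE I)).1.down (hT I) le_top h3.2.2.1,
      h3.down (hT I) le_top h3.2.2.1⟩
  have h5 : BasisOf (kle K (P.obj I)) ((⊤ : L.Substructure (T I)).map (T I).subtype.toHom)
      ((fun X : L.Substructure (T I) => X.map (T I).subtype.toHom) ''
        (range fun i : I => F.sub {i})) := by
    rw [h1, h2]
    exact h4
  exact (basis_map_iff (T I).subtype (hEmb I)).1 h5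

end Vale.Agent.P307.H479.E
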