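import Vale.Agent.P307.H479.E.FamL
import Vale.Agent.P307.H4.EFamL

/-! Categoricity in all large cardinals, if the large strong substructures have bases. -/

universe u

open FirstOrder Cardinal Set Function Language

namespace Vale.Agent.P307.H479.E

open H4.E (IsFreeL stdAtL_conjAtL)

/-- A class with arbitrarily large categoricity cardinals whose members have bases of large strong
substructures is categorical in all large cardinals. -/
theorem eventually_of_freeL {l : Cardinal.{u}} {L : Language.{u, u}} (K : AEC L) (hl : K.IsLS l)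
    (h : ∀ χ : Cardinal.{u}, ∃ κ : Cardinal.{u}, χ ≤ κ ∧ K.CategoricalIn κ ∧
      ∃ (M : Type u) (_ : L.Structure M), K.mem M ∧ #M = κ ∧ IsFreeL K l M) :
    ∃ χ : Cardinal.{u}, ∀ κ, χ ≤ κ → K.CategoricalIn κ := by
  obtain ⟨P, hP⟩ : ∃ P : LocFam K, ∀ (I : Type u) [LinearOrder I], l ≤ #(P.obj I) := by
    obtain ⟨κ, h1, -, M, _, h2, h3, h4⟩ := h (max (hanf (2 ^ l)) (Order.succ l))
    obtain ⟨⟨A, hA⟩, -, -⟩ := h4
    refine exists_locFam_large hl h2 hA ?_ ?_
    · rw [h3]
      exact (le_max_left _ _).trans h1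
    · rw [h3]
      exact Order.succ_le_iff.1 ((le_max_right _ _).trans h1)
  obtain ⟨F, hb⟩ := exists_fam_of_extL K l (fun χ => by
    obtain ⟨κ, h1, h2, M, _, h3, h4, h5⟩ := h χ
    exact ⟨κ, h1, h2, M, _, h3, h4, h5.2.1⟩) P hP
  obtain ⟨l₀, hK⟩ := F.exists_ok
  have hK' : F.Ok (max l₀ l) := ⟨hK.ls.mono (le_max_left _ _), fun n =>
    (hK.bd n).trans (le_max_left _ _)⟩
  refine Pw.eventually_of_stdAtL F hK' fun χ => ?_
  obtain ⟨κ, h1, h2, h3⟩ := h (max χ (Order.succ (max (max l₀ l) ℵ₀)))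
  exact ⟨κ, (le_max_left _ _).trans h1, h2, stdAtL_conjAtL hK' (le_max_right _ _)
    (Order.succ_le_iff.1 ((le_max_right _ _).trans h1)) hb h2 h3⟩

end Vale.Agent.P307.H479.E
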